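import Crest.Agent.R327.Paths

/-! The block construction of a homogeneous depth-five circuit for iterated matrix
multiplication. -/

namespace Crest.Agent.R327

open Finset MvPolynomial Crest.ArithCircuit

section reindex

variable {K ι L B P S R L' B' P' S' R' : Type*}

/-- transport of a circuit along equivalences of the layers -/
def reindex (C : SPSPS K ι L B P S R) (eL : L' ≃ L) (eB : B' ≃ B) (eP : P' ≃ P) (eS : S' ≃ S)
    (eR : R' ≃ R) : SPSPS K ι L' B' P' S' R' where
  leaf l := C.leaf (eL l)
  inB b := (C.inB (eB b)).map eL.symm.toEmbedding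
  coefB b l := C.coefB (eB b) (eL l)
  inP p := (C.inP (eP p)).map eB.symm
  inS s := (C.inS (eS s)).map eP.symm.toEmbedding
  coefS s p := C.coefS (eS s) (eP p)
  inR r := (C.inR (eR r)).map eS.symm
  inOut := C.inOut.map eR.symm.toEmbedding
  coefOut r := C.coefOut (eR r)

variable (C : SPSPS K ι L B P S R) (eL : L' ≃ L) (eB : B' ≃ B) (eP : P' ≃ P) (eS : S' ≃ S)
    (eR : R' ≃ R)

theorem reindex_leafDeg (l : L') : (reindex C eL eB eP eS eR).leafDeg l = C.leafDeg (eL l) := rfl

theorem reindex_degB (b : B') : (reindex C eL eB eP eS eR).degB b = C.degB (eB b) := by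
  simp only [SPSPS.degB]
  change ((C.inB (eB b)).map eL.symm.toEmbedding).sup _ = _
  rw [Finset.sup_map]
  congr 1
  funext l
  simp [reindex_leafDeg]

theorem reindex_degP (p : P') : (reindex C eL eB eP eS eR).degP p = C.degP (eP p) := by
  simp only [SPSPS.degP]
  change (((C.inP (eP p)).map eB.symm).map _).sum = _
  rw [Multiset.map_map]
  congr 2
  funext l
  simp [reindex_degB]

theorem reindex_degS (s : S') : (reindex C eL eB eP eS eR).degS s = C.degS (eS s) := by
  simp only [SPSPS.degS]
  change ((C.inS (eS s)).map eP.symm.toEmbedding).sup _ = _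
  rw [Finset.sup_map]
  congr 1
  funext l
  simp [reindex_degP]

theorem reindex_degR (r : R') : (reindex C eL eB eP eS eR).degR r = C.degR (eR r) := by
  simp only [SPSPS.degR]
  change (((C.inR (eR r)).map eS.symm).map _).sum = _
  rw [Multiset.map_map]
  congr 2
  funext l
  simp [reindex_degS]

theorem reindex_degOut : (reindex C eL eB eP eS eR).degOut = C.degOut := by
  simp only [SPSPS.degOut]
  change (C.inOut.map eR.symm.toEmbedding).sup _ = _
  rw [Finset.sup_map]
  congr 1
  funext l
  simp [reindex_degR]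

theorem reindex_hom (h : C.IsHomogeneous) : (reindex C eL eB eP eS eR).IsHomogeneous := by
  refine ⟨fun b l hl => ?_, fun s p hp => ?_, fun r hr => ?_⟩
  · rw [reindex_leafDeg, reindex_degB]
    exact h.1 _ _ (by simpa [reindex] using hl)
  · rw [reindex_degP, reindex_degS]
    exact h.2.1 _ _ (by simpa [reindex] using hp)
  · rw [reindex_degR, reindex_degOut]
    exact h.2.2 _ (by simpa [reindex] using hr)

variable [CommSemiring K]

theorem reindex_leafVal (l : L') : (reindex C eL eB eP eS eR).leafVal l = C.leafVal (eL l) := rfl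

theorem reindex_valB (b : B') : (reindex C eL eB eP eS eR).valB b = C.valB (eB b) := by
  simp only [SPSPS.valB]
  change ∑ l ∈ (C.inB (eB b)).map eL.symm.toEmbedding, C.coefB (eB b) (eL l) • _ = _
  rw [Finset.sum_map]
  simp [reindex_leafVal]

theorem reindex_valP (p : P') : (reindex C eL eB eP eS eR).valP p = C.valP (eP p) := by
  simp only [SPSPS.valP]
  change (((C.inP (eP p)).map eB.symm).map _).prod = _
  rw [Multiset.map_map]
  congr 2
  funext l
  simp [reindex_valB]

theorem reindex_valS (s : S') : (reindex C eL eB eP eS eR).valS s = C.valS (eS s) := by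
  simp only [SPSPS.valS]
  change ∑ l ∈ (C.inS (eS s)).map eP.symm.toEmbedding, C.coefS (eS s) (eP l) • _ = _
  rw [Finset.sum_map]
  simp [reindex_valP]

theorem reindex_valR (r : R') : (reindex C eL eB eP eS eR).valR r = C.valR (eR r) := by
  simp only [SPSPS.valR]
  change (((C.inR (eR r)).map eS.symm).map _).prod = _
  rw [Multiset.map_map]
  congr 2
  funext l
  simp [reindex_valS]

theorem reindex_output : (reindex C eL eB eP eS eR).output = C.output := by
  simp only [SPSPS.output]
  change ∑ l ∈ C.inOut.map eR.symm.toEmbedding, C.coefOut (eR l) • _ = _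
  rw [Finset.sum_map]
  simp [reindex_valR]

end reindex

section prods

variable {M : Type*} [Monoid M]

/-- ordered product of the first `m` terms -/
def Qf (f : ℕ → M) (m : ℕ) : M := (List.ofFn fun i : Fin m => f i).prod

theorem Qf_zero (f : ℕ → M) : Qf f 0 = 1 := by simp [Qf]

theorem Qf_succ (f : ℕ → M) (m : ℕ) : Qf f (m + 1) = Qf f m * f m := by
  simp only [Qf]
  rw [List.ofFn_succ', List.concat_eq_append, List.prod_append]
  simp

theorem Qf_add (f : ℕ → M) (a b : ℕ) : Qf f (a + b) = Qf f a * Qf (fun i => f (a + i)) b := by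
  induction b with
  | zero => simp [Qf_zero]
  | succ b ih => rw [← add_assoc, Qf_succ, Qf_succ, ih, mul_assoc]

theorem Qf_mul (f : ℕ → M) (t r : ℕ) :
    Qf (fun j => Qf (fun i => f (j * t + i)) t) r = Qf f (r * t) := by
  induction r with
  | zero => simp [Qf_zero]
  | succ r ih => rw [Qf_succ, ih, add_mul, one_mul, Qf_add]

theorem Qf_of_one (f : ℕ → M) {n m : ℕ} (h : ∀ k, n ≤ k → f k = 1) (hm : n ≤ m) :
    Qf f m = Qf f n := by
  induction m, hm using Nat.le_induction with
  | base => rfl
  | succ m hm ih => rw [Qf_succ, ih, h m hm, mul_one]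

end prods

variable (K : Type*) [CommSemiring K] (n t r : ℕ)

/-- the variable matrices padded by identity matrices -/
noncomputable def Mx (k : ℕ) :
    Matrix (Fin (n + 1)) (Fin (n + 1)) (MvPolynomial (Fin (n + 1) × Fin (n + 1) × Fin (n + 1)) K) :=
  if h : k < n + 1 then varMatrix K (n + 1) ⟨k, h⟩ else 1

/-- the variable read by a lower product gate at step `i` -/
def stepVar (p : Fin (r + 1) × (Fin (t + 1) → Fin (n + 1))) (i : Fin t) :
    Fin (n + 1) × Fin (n + 1) × Fin (n + 1) :=
  (⟨min (p.1 * t + i) n, by omega⟩, p.2 i.castSucc, p.2 i.succ)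

/-- the outer paths -/
def Outer : Finset (Fin (r + 2) → Fin (n + 1)) :=
  univ.filter fun g => g 0 = 0 ∧ g (Fin.last (r + 1)) = 0

/-- the block circuit -/
def blockCircuit : SPSPS K (Fin (n + 1) × Fin (n + 1) × Fin (n + 1))
    (Fin (n + 1) × Fin (n + 1) × Fin (n + 1)) (Fin (n + 1) × Fin (n + 1) × Fin (n + 1))
    (Fin (r + 1) × (Fin (t + 1) → Fin (n + 1))) (Fin (r + 1) × Fin (n + 1) × Fin (n + 1))
    (Outer n r) where
  leaf := Sum.inl
  inB b := {b}
  coefB _ _ := 1
  inP p := (univ.filter fun i : Fin t => p.1 * t + i < n + 1).val.map (stepVar n t r p)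
  inS s := univ.filter fun p => p.1 = s.1 ∧ p.2 0 = s.2.1 ∧ p.2 (Fin.last t) = s.2.2 ∧
    ∀ i : Fin t, ¬ (s.1 * t + i < n + 1) → p.2 i.castSucc = p.2 i.succ
  coefS _ _ := 1
  inR g := univ.val.map fun j : Fin (r + 1) => (j, g.1 j.castSucc, g.1 j.succ)
  inOut := univ
  coefOut _ := 1

theorem block_valB (b) : (blockCircuit K n t r).valB b = X b := by
  simp [SPSPS.valB, blockCircuit, SPSPS.leafVal]

theorem block_valP (p) : (blockCircuit K n t r).valP p =
    ∏ i ∈ univ.filter fun i : Fin t => p.1 * t + i < n + 1, X (stepVar n t r p i) := by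
  simp only [SPSPS.valP]
  change (((univ.filter fun i : Fin t => p.1 * t + i < n + 1).val.map
    (stepVar n t r p)).map _).prod = _
  rw [Multiset.map_map]
  simp only [Function.comp_def, block_valB]
  rfl

theorem block_valS (s) : (blockCircuit K n t r).valS s =
    Qf (fun i => Mx K n (s.1 * t + i)) t s.2.1 s.2.2 := by
  obtain ⟨j, x, z⟩ := s
  simp only [SPSPS.valS, block_valP, Qf]
  rw [prod_ofFn_apply]
  change ∑ p ∈ univ.filter (fun p : Fin (r + 1) × (Fin (t + 1) → Fin (n + 1)) =>
    p.1 = j ∧ p.2 0 = x ∧ p.2 (Fin.last t) = z ∧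
    ∀ i : Fin t, ¬ (j * t + i < n + 1) → p.2 i.castSucc = p.2 i.succ), (1 : K) • _ = _
  rw [Finset.sum_filter, Fintype.sum_prod_type, Finset.sum_eq_single j]
  · refine Finset.sum_congr rfl fun π _ => ?_
    simp only [true_and, one_smul]
    by_cases h : π 0 = x ∧ π (Fin.last t) = z
    · rw [if_pos h]
      by_cases h' : ∀ i : Fin t, ¬ (j * t + i < n + 1) → π i.castSucc = π i.succ
      · rw [if_pos ⟨h.1, h.2, h'⟩, Finset.prod_filter]
        refine Finset.prod_congr rfl fun i _ => ?_
        by_cases hi : j * t + i < n + 1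
        · rw [if_pos hi, Mx, dif_pos hi]
          simp only [varMatrix, Matrix.of_apply, stepVar]
          congr 3
          omega
        · rw [if_neg hi, Mx, dif_neg hi, h' i hi, Matrix.one_apply_eq]
      · rw [if_neg (fun hh => h' hh.2.2)]
        push Not at h'
        obtain ⟨i, hi, hne⟩ := h'
        symm
        refine Finset.prod_eq_zero (Finset.mem_univ i) ?_
        rw [Mx, dif_neg (by omega), Matrix.one_apply_ne hne]
    · rw [if_neg h, if_neg (fun hh => h ⟨hh.1, hh.2.1⟩)]
  · intro b _ hb
    simp [hb]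
  · simp

theorem block_output (h : n + 1 ≤ (r + 1) * t) :
    (blockCircuit K n t r).output = imm K (n + 1) := by
  have e1 : imm K (n + 1) = Qf (Mx K n) (n + 1) 0 0 := by
    have : varMatrix K (n + 1) = fun i : Fin (n + 1) => Mx K n i := by
      funext i
      rw [Mx, dif_pos i.2]
    rw [imm, Qf, this]
  rw [e1, ← Qf_of_one (Mx K n) (fun k hk => dif_neg (by omega)) h, ← Qf_mul, Qf,
    prod_ofFn_apply, ← Finset.sum_filter]
  simp only [SPSPS.output]
  change ∑ g : Outer n r, (1 : K) • (blockCircuit K n t r).valR g = ∑ g ∈ Outer n r, _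
  rw [← Finset.sum_coe_sort (Outer n r)]
  refine Finset.sum_congr rfl fun g _ => ?_
  rw [one_smul, SPSPS.valR]
  change ((univ.val.map fun j : Fin (r + 1) => (j, g.1 j.castSucc, g.1 j.succ)).map _).prod = _
  rw [Multiset.map_map]
  simp only [Function.comp_def, block_valS]
  rfl

theorem block_degB (b) : (blockCircuit K n t r).degB b = 1 := by
  simp [SPSPS.degB, blockCircuit, SPSPS.leafDeg]

theorem block_degP (p) : (blockCircuit K n t r).degP p =
    (univ.filter fun i : Fin t => p.1 * t + i < n + 1).card := by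
  simp only [SPSPS.degP]
  change (((univ.filter fun i : Fin t => p.1 * t + i < n + 1).val.map
    (stepVar n t r p)).map _).sum = _
  rw [Multiset.map_map]
  simp only [Function.comp_def, block_degB, Multiset.map_const', Multiset.sum_replicate,
    smul_eq_mul, mul_one]
  rfl

theorem block_degS (ht : 1 ≤ t) (h : r * t < n + 1) (s) : (blockCircuit K n t r).degS s =
    (univ.filter fun i : Fin t => s.1 * t + i < n + 1).card := by
  obtain ⟨j, x, z⟩ := s
  have hne : ((blockCircuit K n t r).inS (j, x, z)).Nonempty := by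
    refine ⟨(j, fun v => if v = 0 then x else z), ?_⟩
    simp only [blockCircuit, Finset.mem_filter, Finset.mem_univ, true_and, if_true]
    refine ⟨if_neg ?_, fun i hi => ?_⟩
    · intro h0
      have := congrArg Fin.val h0
      simp at this
      omega
    · rw [if_neg (Fin.succ_ne_zero i), if_neg]
      intro h0
      have h1 := congrArg Fin.val h0
      have h2 : (j : ℕ) * t ≤ r * t := Nat.mul_le_mul_right _ (by omega)
      simp at h1
      omega
  rw [SPSPS.degS, Finset.sup_congr rfl (g := fun _ =>
    (univ.filter fun i : Fin t => j * t + i < n + 1).card), Finset.sup_const hne]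
  intro p hp
  simp only [blockCircuit, Finset.mem_filter, Finset.mem_univ, true_and] at hp
  rw [block_degP, hp.1]

theorem block_degR (ht : 1 ≤ t) (h : r * t < n + 1) (g) : (blockCircuit K n t r).degR g =
    ∑ j : Fin (r + 1), (univ.filter fun i : Fin t => j * t + i < n + 1).card := by
  simp only [SPSPS.degR]
  change ((univ.val.map fun j : Fin (r + 1) => (j, g.1 j.castSucc, g.1 j.succ)).map _).sum = _
  rw [Multiset.map_map]
  simp only [Function.comp_def, block_degS K n t r ht h]
  rfl

theorem block_hom (ht : 1 ≤ t) (h : r * t < n + 1) : (blockCircuit K n t r).IsHomogeneous := by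
  refine ⟨fun b l _ => ?_, fun s p hp => ?_, fun g hg => ?_⟩
  · rw [block_degB]
    rfl
  · simp only [blockCircuit, Finset.mem_filter, Finset.mem_univ, true_and] at hp
    rw [block_degP, block_degS K n t r ht h, hp.1]
  · rw [SPSPS.degOut, Finset.sup_congr rfl (g := fun _ =>
      ∑ j : Fin (r + 1), (univ.filter fun i : Fin t => j * t + i < n + 1).card),
      Finset.sup_const ⟨g, hg⟩, block_degR K n t r ht h]
    intro g' _
    exact block_degR K n t r ht h g'

theorem card_Outer : Fintype.card (Outer n r) ≤ (n + 1) ^ r := by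
  have h : (n + 1) ^ r = Fintype.card (Fin r → Fin (n + 1)) := by simp
  rw [h]
  refine Fintype.card_le_of_injective (fun g i => g.1 i.castSucc.succ) ?_
  intro g g' hg
  have h1 := g.2
  have h2 := g'.2
  simp only [Outer, Finset.mem_filter, Finset.mem_univ, true_and] at h1 h2
  apply Subtype.ext
  funext v
  refine Fin.cases ?_ (fun v => ?_) v
  · rw [h1.1, h2.1]
  · refine Fin.lastCases ?_ (fun v => ?_) v
    · rw [Fin.succ_last, h1.2, h2.2]
    · exact congrFun hg v

theorem exists_circuit (ht : 1 ≤ t) (h1 : r * t < n + 1) (h2 : n + 1 ≤ (r + 1) * t) :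
    ∃ (l b p s r' : ℕ) (C : SPSPS K (Fin (n + 1) × Fin (n + 1) × Fin (n + 1))
      (Fin l) (Fin b) (Fin p) (Fin s) (Fin r')),
      C.IsHomogeneous ∧ C.output = imm K (n + 1) ∧
        C.size ≤ 2 * (n + 1) ^ 3 + (r + 1) * (n + 1) ^ 2 + (r + 1) * (n + 1) ^ (t + 1) +
          (n + 1) ^ r + 1 := by
  refine ⟨_, _, _, _, _, reindex (blockCircuit K n t r) (Fintype.equivFin _).symm
    (Fintype.equivFin _).symm (Fintype.equivFin _).symm (Fintype.equivFin _).symm
    (Fintype.equivFin _).symm, reindex_hom _ _ _ _ _ _ (block_hom K n t r ht h1), ?_, ?_⟩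
  · rw [reindex_output, block_output K n t r h2]
  · have := card_Outer n r
    simp only [SPSPS.size, Fintype.card_fin, Fintype.card_prod, Fintype.card_pi,
      Finset.prod_const, Finset.card_univ]
    have e1 : (n + 1) * ((n + 1) * (n + 1)) = (n + 1) ^ 3 := by ring
    have e2 : (n + 1) * (n + 1) = (n + 1) ^ 2 := by ring
    rw [e1, e2]
    omega

end Crest.Agent.R327
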