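import Crest.Agent.R327.Upper
import Crest.Prelude.Def_SPSPS

/-! The abstract measure of the output of a homogeneous depth-five circuit. -/

namespace Crest.Agent.R327

open Finset MvPolynomial Crest.ArithCircuit

theorem hom_multiset_prod {ι K κ : Type*} [CommSemiring K] (f : κ → MvPolynomial ι K) (d : κ → ℕ)
    (hf : ∀ x, (f x).IsHomogeneous (d x)) (s : Multiset κ) :
    (s.map f).prod.IsHomogeneous (s.map d).sum := by
  induction s using Multiset.induction_on with
  | empty => simpa using isHomogeneous_one _ _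
  | cons x s ih =>
    simp only [Multiset.map_cons, Multiset.prod_cons, Multiset.sum_cons]
    exact (hf x).mul ih

theorem hom_smul {ι K : Type*} [CommSemiring K] {P : MvPolynomial ι K} {d : ℕ}
    (h : P.IsHomogeneous d) (c : K) : (c • P).IsHomogeneous d :=
  (homogeneousSubmodule ι K d).smul_mem c h

section hom

variable {K ι L B P S R : Type*} [CommSemiring K] (C : SPSPS K ι L B P S R)

theorem hom_leaf (l : L) : (C.leafVal l).IsHomogeneous (C.leafDeg l) := by
  unfold SPSPS.leafVal SPSPS.leafDeg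
  cases C.leaf l with
  | inl v => exact isHomogeneous_X _ _
  | inr c => exact isHomogeneous_C _ _

theorem leafDeg_le (l : L) : C.leafDeg l ≤ 1 := by
  unfold SPSPS.leafDeg
  cases C.leaf l <;> simp

theorem degB_le (b : B) : C.degB b ≤ 1 :=
  Finset.sup_le fun l _ => leafDeg_le C l

variable {C} (h : C.IsHomogeneous)
include h

theorem hom_B (b : B) : (C.valB b).IsHomogeneous (C.degB b) := by
  refine IsHomogeneous.sum _ _ _ fun l hl => hom_smul ?_ _
  rw [← h.1 b l hl]
  exact hom_leaf C l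

theorem hom_P (p : P) : (C.valP p).IsHomogeneous (C.degP p) :=
  hom_multiset_prod _ _ (hom_B h) _

theorem hom_S (s : S) : (C.valS s).IsHomogeneous (C.degS s) := by
  refine IsHomogeneous.sum _ _ _ fun p hp => hom_smul ?_ _
  rw [← h.2.1 s p hp]
  exact hom_P h p

theorem hom_R (r : R) : (C.valR r).IsHomogeneous (C.degR r) :=
  hom_multiset_prod _ _ (hom_S h) _

end hom

variable {ι : Type*} [Fintype ι] {K : Type*} [Field K] {y : ι → Bool} {A B C : ℝ} {n : ℕ}

theorem Meas.valR_le (M : Meas K y A B C n) (hC : 0 ≤ C) {L Bt P S R : Type*} [Fintype P]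
    {Ci : SPSPS K ι L Bt P S R} (h : Ci.IsHomogeneous) {t : ℕ} (ht : 1 ≤ t) {ρ : ℝ}
    (hρ0 : 0 ≤ ρ) (hρ1 : ρ ≤ 1) (hρ : ∀ D, t ≤ D → D ≤ 2 * t → phi A B D ≤ ρ)
    (hρ' : phi A B 1 ≤ ρ) (r : R) :
    M.μ (Ci.valR r) ≤ C * (t * ρ ^ (n / (2 * t)) + Fintype.card P * (ρ ^ t * (n + 1))) := by
  classical
  by_cases hn : Ci.degR r = n
  swap
  · rw [M.deg _ _ (hom_R h r) hn]
    positivity
  by_cases hl : ∀ s ∈ Ci.inR r, Ci.degS s ≤ t
  · have h1 := (Meas.good_low (M := M) hC Ci.valS Ci.degS (hom_S h) ht hρ0 hρ1 hρ (Ci.inR r) hl 1 0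
      (isHomogeneous_one _ _) (by omega)).le
    rw [one_mul, zero_add] at h1
    change M.μ (Ci.valR r) ≤ C * (t * ρ ^ (Ci.degR r / (2 * t))) at h1
    rw [hn] at h1
    refine h1.trans ?_
    gcongr
    exact le_add_of_nonneg_right (by positivity)
  · push Not at hl
    obtain ⟨s, hs, hts⟩ := hl
    obtain ⟨s', hs'⟩ := Multiset.exists_cons_of_mem hs
    have e1 : Ci.valR r = Ci.valS s * (s'.map Ci.valS).prod := by
      simp [SPSPS.valR, hs']
    have e2 : Ci.degR r = Ci.degS s + (s'.map Ci.degS).sum := by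
      simp [SPSPS.degR, hs']
    have hG := hom_multiset_prod _ _ (hom_S h) s'
    set G := (s'.map Ci.valS).prod
    set g := (s'.map Ci.degS).sum
    have hg : (g : ℝ) ≤ n := by exact_mod_cast (by omega : g ≤ n)
    rw [e1, SPSPS.valS, Finset.sum_mul]
    refine (M.sum_le _ _).trans ?_
    have h3 : ∀ p ∈ Ci.inS s,
        M.μ (Ci.coefS s p • Ci.valP p * G) ≤ C * (ρ ^ t * (n + 1)) := by
      intro p hp
      rw [smul_mul_assoc]
      refine (M.smul_le _ _).trans ?_
      have h4 := (Meas.good_lin (M := M) hC Ci.valB Ci.degB (hom_B h) (degB_le Ci) hρ0 hρ'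
        (Ci.inP p) G g hG).le
      refine h4.trans ?_
      have h5 : ((Ci.inP p).map Ci.degB).sum = Ci.degS s := h.2.1 s p hp
      rw [h5]
      gcongr _ * (?_ * ?_)
      · exact pow_le_pow_of_le_one hρ0 hρ1 hts.le
      · linarith
    calc _ ≤ ∑ _p ∈ Ci.inS s, C * (ρ ^ t * (n + 1)) := Finset.sum_le_sum h3
      _ = (Ci.inS s).card * (C * (ρ ^ t * (n + 1))) := by simp
      _ ≤ Fintype.card P * (C * (ρ ^ t * (n + 1))) := by
        gcongr
        exact Finset.card_le_univ _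
      _ = C * (Fintype.card P * (ρ ^ t * (n + 1))) := by ring
      _ ≤ _ := by
        gcongr
        exact le_add_of_nonneg_left (by positivity)

theorem Meas.output_le (M : Meas K y A B C n) (hC : 0 ≤ C) {L Bt P S R : Type*} [Fintype P]
    [Fintype R] {Ci : SPSPS K ι L Bt P S R} (h : Ci.IsHomogeneous) {t : ℕ} (ht : 1 ≤ t) {ρ : ℝ}
    (hρ0 : 0 ≤ ρ) (hρ1 : ρ ≤ 1) (hρ : ∀ D, t ≤ D → D ≤ 2 * t → phi A B D ≤ ρ)
    (hρ' : phi A B 1 ≤ ρ) :
    M.μ Ci.output ≤ Fintype.card R *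
      (C * (t * ρ ^ (n / (2 * t)) + Fintype.card P * (ρ ^ t * (n + 1)))) := by
  unfold SPSPS.output
  refine (M.sum_le _ _).trans ?_
  calc _ ≤ ∑ _r ∈ Ci.inOut, C * (t * ρ ^ (n / (2 * t)) + Fintype.card P * (ρ ^ t * (n + 1))) :=
        Finset.sum_le_sum fun r _ =>
          (M.smul_le _ _).trans (M.valR_le hC h ht hρ0 hρ1 hρ hρ' r)
    _ = Ci.inOut.card * (C * (t * ρ ^ (n / (2 * t)) + Fintype.card P * (ρ ^ t * (n + 1)))) := by
        simp only [Finset.sum_const, nsmul_eq_mul]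
    _ ≤ _ := by
        gcongr
        exact Finset.card_le_univ _

/-- the concrete measure -/
noncomputable def toepMeas (K : Type*) [Field K] (y : ι → Bool) (F₁ F₂ : Type*) [Fintype F₁]
    [Fintype F₂] {l k m N₁ N₂ a b : ℕ}
    (hN₁ : Fintype.card (ι ⊕ F₁) = N₁ + 1) (hN₂ : Fintype.card (ι ⊕ F₂) = N₂ + 1)
    (ha : N₁ + l = a * l) (hb : N₂ + l = b * l) (ha1 : 1 ≤ a) (hb1 : 1 ≤ b) :
    Meas K y (Real.log a) (Real.log b)
      (Dm N₁ l * Dm N₂ l * Real.exp ((k * Real.log a + m * Real.log b) / 2)) (k + m) where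
  μ P := ((toep y F₁ F₂ K (l + k) l l (l + m) P).rank : ℝ)
  zero := by simp
  add_le P Q := by
    rw [map_add]
    exact_mod_cast mrank_add_le _ _
  smul_le c P := by
    rw [map_smul]
    exact_mod_cast mrank_smul_le _ _
  base P₁ P₂ i₁ j₁ i₂ j₂ h1 h2 := by
    by_cases h : l + k = l + (i₁ + i₂) ∧ l + m = l + (j₁ + j₂)
    · have hk : k = i₁ + i₂ := by omega
      have hm : m = j₁ + j₂ := by omega
      have h3 := rank_toep_mul_le y F₁ F₂ (l := l) (k := k) (m := m) P₂ h1 (by omega) hN₁ hN₂ ha hb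
        ha1 hb1
      have h4 : ((toep y F₁ F₂ K (l + k) l l (l + m) (P₁ * P₂)).rank : ℝ) ≤
          Dm N₁ l * Dm N₂ l * ((a : ℝ) ^ (k - i₁) * (b : ℝ) ^ j₁) := by exact_mod_cast h3
      refine h4.trans (le_of_eq ?_)
      have ha0 : (0 : ℝ) < a := by exact_mod_cast ha1
      have hb0 : (0 : ℝ) < b := by exact_mod_cast hb1
      rw [mul_assoc _ (Real.exp _), ← Real.exp_add]
      congr 1
      have e : k - i₁ = i₂ := by omega
      rw [e, ← Real.exp_log (pow_pos ha0 i₂), ← Real.exp_log (pow_pos hb0 j₁), ← Real.exp_add,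
        Real.log_pow, Real.log_pow, hk, hm]
      congr 1
      push_cast
      ring
    · rw [toep_eq_zero_of_whom y F₁ F₂ (h1.mul h2) h]
      simp only [Matrix.rank_zero, Nat.cast_zero]
      positivity
  deg P d hP hd := by
    rw [toep_eq_zero_of_hom y F₁ F₂ hP hd]
    simp

end Crest.Agent.R327
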