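import Mathlib
import Crest.Prelude.Def_SPSPS

/-! Entries of a product of matrices as sums over paths. -/

namespace Crest.Agent.R327

open Finset MvPolynomial Crest.ArithCircuit

theorem prod_ofFn_apply {R V : Type*} [CommSemiring R] [Fintype V] [DecidableEq V] :
    ∀ (d : ℕ) (M : Fin d → Matrix V V R) (x z : V),
      (List.ofFn M).prod x z = ∑ π : Fin (d + 1) → V,
        if π 0 = x ∧ π (Fin.last d) = z then ∏ t, M t (π t.castSucc) (π t.succ) else 0
  | 0, M, x, z => by
    rw [← (Equiv.funUnique (Fin 1) V).symm.sum_comp]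
    simp only [List.ofFn_zero, List.prod_nil, Matrix.one_apply, Finset.univ_eq_empty,
      Finset.prod_empty]
    rw [Finset.sum_eq_single x]
    · simp
    · intro b _ hb
      simp [hb]
    · simp
  | d + 1, M, x, z => by
    rw [List.ofFn_succ, List.prod_cons, Matrix.mul_apply,
      ← (Fin.consEquiv (fun _ : Fin (d + 2) => V)).sum_comp, Fintype.sum_prod_type]
    symm
    rw [Finset.sum_eq_single x]
    · simp only [prod_ofFn_apply d, Finset.mul_sum]
      rw [Finset.sum_comm]
      refine Finset.sum_congr rfl fun π _ => ?_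
      rw [Finset.sum_eq_single (π 0)]
      · rw [Fin.prod_univ_succ]
        simp only [Fin.consEquiv_apply, Fin.cons_zero, true_and, ← Fin.succ_last, Fin.cons_succ,
          Fin.castSucc_zero, ← Fin.succ_castSucc]
        split_ifs <;> simp
      · intro b _ hb
        simp [Ne.symm hb]
      · simp
    · intro b _ hb
      simp [hb]
    · simp

/-- the paths from `0` to `0` -/
def Pth (n : ℕ) : Finset (Fin (n + 2) → Fin (n + 1)) :=
  univ.filter fun π => π 0 = 0 ∧ π (Fin.last (n + 1)) = 0

/-- the `t`-th edge (variable) of a path -/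
def edge {n : ℕ} (π : Fin (n + 2) → Fin (n + 1)) (t : Fin (n + 1)) :
    Fin (n + 1) × Fin (n + 1) × Fin (n + 1) := (t, π t.castSucc, π t.succ)

/-- the monomial of a path -/
noncomputable def gam {n : ℕ} (π : Fin (n + 2) → Fin (n + 1)) :
    Fin (n + 1) × Fin (n + 1) × Fin (n + 1) →₀ ℕ := ∑ t, Finsupp.single (edge π t) 1

theorem gam_apply {n : ℕ} (π : Fin (n + 2) → Fin (n + 1))
    (v : Fin (n + 1) × Fin (n + 1) × Fin (n + 1)) :
    gam π v = if edge π v.1 = v then 1 else 0 := by
  rw [gam, Finsupp.finsetSum_apply, Finset.sum_eq_single v.1, Finsupp.single_apply]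
  · intro b _ hb
    rw [Finsupp.single_apply, if_neg]
    intro h
    exact hb (by rw [← h]; rfl)
  · simp

theorem imm_eq_sum (K : Type*) [CommSemiring K] (n : ℕ) :
    imm K (n + 1) = ∑ π ∈ Pth n, monomial (gam π) 1 := by
  rw [imm, prod_ofFn_apply, Pth, Finset.sum_filter]
  refine Finset.sum_congr rfl fun π _ => ?_
  split_ifs
  · rw [gam, monomial_sum_one]
    rfl
  · rfl

theorem le_card_Pth (n : ℕ) : (n + 1) ^ n ≤ (Pth n).card := by
  have h : (n + 1) ^ n = (univ : Finset (Fin n → Fin (n + 1))).card := by simp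
  rw [h]
  refine Finset.card_le_card_of_injOn
    (fun f => Fin.cons 0 (Fin.snoc (α := fun _ => Fin (n + 1)) f 0)) ?_ ?_
  · intro f _
    simp [Pth, ← Fin.succ_last]
  · intro f _ g _ hfg
    funext i
    have := congrFun hfg i.castSucc.succ
    simpa using this

end Crest.Agent.R327
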