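import Mathlib

/-! A two-state transfer-matrix bound. -/

namespace Crest.Agent.R327

open Finset

variable {V : Type*} [Fintype V] [DecidableEq V]

/-- indicator of the first pairing pattern -/
noncomputable def iA (x : V × V × V × V) : ℝ := if x.1 = x.2.1 ∧ x.2.2.1 = x.2.2.2 then 1 else 0

/-- indicator of the second pairing pattern -/
noncomputable def iB (x : V × V × V × V) : ℝ := if x.1 = x.2.2.2 ∧ x.2.1 = x.2.2.1 then 1 else 0

/-- one layer of the transfer matrix -/
noncomputable def Om (α β : ℝ) : Matrix (V × V × V × V) (V × V × V × V) ℝ :=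
  Matrix.of fun x x' => α * (iA x * iA x') + β * (iB x * iB x')

theorem sum_iA_iA : ∑ x : V × V × V × V, iA x * iA x = (Fintype.card V : ℝ) ^ 2 := by
  simp only [iA, Fintype.sum_prod_type, mul_ite, mul_one, mul_zero, ite_and]
  simp [Finset.sum_ite_eq, sq]

theorem sum_iB_iB : ∑ x : V × V × V × V, iB x * iB x = (Fintype.card V : ℝ) ^ 2 := by
  have : ∀ x : V × V × V × V, iB x * iB x =
      (if x.1 = x.2.2.2 then 1 else 0) * (if x.2.1 = x.2.2.1 then 1 else 0) := by
    intro x
    simp only [iB]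
    by_cases h1 : x.1 = x.2.2.2 <;> by_cases h2 : x.2.1 = x.2.2.1 <;> simp [h1, h2]
  simp only [this, Fintype.sum_prod_type, ← Finset.sum_mul]
  simp [sq]

theorem sum_iA_iB : ∑ x : V × V × V × V, iA x * iB x = (Fintype.card V : ℝ) := by
  have : ∀ x : V × V × V × V, iA x * iB x =
      (if x.1 = x.2.1 then 1 else 0) * ((if x.1 = x.2.2.1 then 1 else 0) *
        (if x.1 = x.2.2.2 then 1 else 0)) := by
    rintro ⟨x1, x2, x3, x4⟩
    simp only [iA, iB]
    by_cases h1 : x1 = x2
    · subst h1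
      by_cases h2 : x1 = x3
      · subst h2
        by_cases h3 : x1 = x4 <;> simp [h3]
      · simp [h2]
    · simp [h1]
  simp only [this, Fintype.sum_prod_type, ← Finset.mul_sum]
  simp

/-- prefix products of the transfer matrices -/
noncomputable def Wm (α β : ℕ → ℝ) (t : ℕ) : Matrix (V × V × V × V) (V × V × V × V) ℝ :=
  (List.ofFn fun i : Fin t => Om (V := V) (α i) (β i)).prod

theorem Wm_succ (α β : ℕ → ℝ) (t : ℕ) (x x' : V × V × V × V) :
    Wm α β (t + 1) x x' = α t * (∑ z, Wm α β t x z * iA z) * iA x' +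
      β t * (∑ z, Wm α β t x z * iB z) * iB x' := by
  have : Wm (V := V) α β (t + 1) = Wm α β t * Om (α t) (β t) := by
    simp only [Wm]
    rw [List.ofFn_succ', List.concat_eq_append, List.prod_append]
    simp
  rw [this, Matrix.mul_apply, Finset.mul_sum, Finset.mul_sum, Finset.sum_mul, Finset.sum_mul,
    ← Finset.sum_add_distrib]
  refine Finset.sum_congr rfl fun z _ => ?_
  simp only [Om, Matrix.of_apply]
  ring

theorem transfer_aux (α β p q : ℕ → ℝ) (hα : ∀ t, 0 ≤ α t) (hβ : ∀ t, 0 ≤ β t)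
    (hp0 : p 0 = 1) (hq0 : q 0 = 1) (hp : ∀ t, p (t + 1) = α t * p t)
    (hq : ∀ t, q (t + 1) = β t * q t) {η : ℝ} (hη : 0 ≤ η)
    (h1 : ∀ t, q t ≤ η * Fintype.card V * p t) (h2 : ∀ t, p t ≤ η * Fintype.card V * q t)
    (v : V) (t : ℕ) :
    ∑ z, Wm α β t (v, v, v, v) z * iA z ≤ ((Fintype.card V : ℝ) ^ 2 * (1 + η)) ^ t * p t ∧
    ∑ z, Wm α β t (v, v, v, v) z * iB z ≤ ((Fintype.card V : ℝ) ^ 2 * (1 + η)) ^ t * q t := by
  induction t with
  | zero =>
    simp only [Wm, List.ofFn_zero, List.prod_nil, Matrix.one_apply, ite_mul, one_mul, zero_mul,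
      Finset.sum_ite_eq, Finset.mem_univ, if_true, pow_zero, hp0, hq0]
    simp [iA, iB]
  | succ t ih =>
    obtain ⟨ih1, ih2⟩ := ih
    set N : ℝ := (Fintype.card V : ℝ) with hN
    have hN0 : 0 ≤ N := Nat.cast_nonneg _
    set I := ∑ z, Wm α β t (v, v, v, v) z * iA z with hI
    set J := ∑ z, Wm α β t (v, v, v, v) z * iB z with hJ
    set c := (N ^ 2 * (1 + η)) ^ t with hc
    have hc0 : 0 ≤ c := by positivity
    have a1 : α t * I ≤ c * p (t + 1) := by
      rw [hp]
      calc α t * I ≤ α t * (c * p t) := mul_le_mul_of_nonneg_left ih1 (hα t)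
        _ = _ := by ring
    have a2 : β t * J ≤ c * q (t + 1) := by
      rw [hq]
      calc β t * J ≤ β t * (c * q t) := mul_le_mul_of_nonneg_left ih2 (hβ t)
        _ = _ := by ring
    constructor
    · have e : ∑ z, Wm α β (t + 1) (v, v, v, v) z * iA z = α t * I * N ^ 2 + β t * J * N := by
        simp only [Wm_succ, ← hI, ← hJ, add_mul, Finset.sum_add_distrib, mul_assoc,
          ← Finset.mul_sum]
        rw [sum_iA_iA, Finset.sum_congr rfl fun z _ => mul_comm (iB z) (iA z), sum_iA_iB]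
      rw [e, pow_succ _ t, ← hc]
      calc α t * I * N ^ 2 + β t * J * N
          ≤ c * p (t + 1) * N ^ 2 + c * q (t + 1) * N := by gcongr
        _ ≤ c * p (t + 1) * N ^ 2 + c * (η * N * p (t + 1)) * N := by gcongr; exact h1 _
        _ = _ := by ring
    · have e : ∑ z, Wm α β (t + 1) (v, v, v, v) z * iB z = α t * I * N + β t * J * N ^ 2 := by
        simp only [Wm_succ, ← hI, ← hJ, add_mul, Finset.sum_add_distrib, mul_assoc,
          ← Finset.mul_sum]
        rw [sum_iB_iB, sum_iA_iB]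
      rw [e, pow_succ _ t, ← hc]
      calc α t * I * N + β t * J * N ^ 2
          ≤ c * p (t + 1) * N + c * q (t + 1) * N ^ 2 := by gcongr
        _ ≤ c * (η * N * q (t + 1)) * N + c * q (t + 1) * N ^ 2 := by gcongr; exact h2 _
        _ = _ := by ring

theorem transfer (α β p q : ℕ → ℝ) (hα : ∀ t, 0 ≤ α t) (hβ : ∀ t, 0 ≤ β t)
    (hp0 : p 0 = 1) (hq0 : q 0 = 1) (hp : ∀ t, p (t + 1) = α t * p t)
    (hq : ∀ t, q (t + 1) = β t * q t) {η : ℝ} (hη : 0 ≤ η)
    (h1 : ∀ t, q t ≤ η * Fintype.card V * p t) (h2 : ∀ t, p t ≤ η * Fintype.card V * q t)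
    (v : V) (t : ℕ) :
    Wm α β (t + 1) (v, v, v, v) (v, v, v, v) ≤
      ((Fintype.card V : ℝ) ^ 2 * (1 + η)) ^ t * (p (t + 1) + q (t + 1)) := by
  obtain ⟨a1, a2⟩ := transfer_aux α β p q hα hβ hp0 hq0 hp hq hη h1 h2 v t
  rw [Wm_succ, hp, hq]
  have e1 : iA (v, v, v, v) = 1 := by simp [iA]
  have e2 : iB (v, v, v, v) = 1 := by simp [iB]
  rw [e1, e2, mul_one, mul_one]
  have b1 := mul_le_mul_of_nonneg_left a1 (hα t)
  have b2 := mul_le_mul_of_nonneg_left a2 (hβ t)
  linarith

/-- existence of a balanced colouring of the layers -/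
theorem exists_balanced {a b : ℕ} (ha : 1 ≤ a) (hab : a ≤ b) :
    ∃ yl : ℕ → Bool, ∀ t,
      a ^ (Nat.count (fun s => yl s = true) t) ≤ b * b ^ (Nat.count (fun s => yl s = false) t) ∧
      b ^ (Nat.count (fun s => yl s = false) t) ≤ b * a ^ (Nat.count (fun s => yl s = true) t) := by
  let f : ℕ → ℕ × ℕ := fun t => Nat.rec (0, 0)
    (fun _ x => if a ^ x.1 ≤ b ^ x.2 then (x.1 + 1, x.2) else (x.1, x.2 + 1)) t
  have hf : ∀ t, f (t + 1) =
    if a ^ (f t).1 ≤ b ^ (f t).2 then ((f t).1 + 1, (f t).2) else ((f t).1, (f t).2 + 1) :=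
    fun t => rfl
  refine ⟨fun t => decide (a ^ (f t).1 ≤ b ^ (f t).2), ?_⟩
  have key : ∀ t, Nat.count (fun s => decide (a ^ (f s).1 ≤ b ^ (f s).2) = true) t = (f t).1 ∧
      Nat.count (fun s => decide (a ^ (f s).1 ≤ b ^ (f s).2) = false) t = (f t).2 := by
    intro t
    induction t with
    | zero => simp [f]
    | succ t ih =>
      rw [Nat.count_succ, Nat.count_succ, ih.1, ih.2, hf]
      by_cases h : a ^ (f t).1 ≤ b ^ (f t).2 <;> simp [h]
  intro t
  rw [(key t).1, (key t).2]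
  induction t with
  | zero => simp [f]; omega
  | succ t ih =>
    rw [hf]
    by_cases h : a ^ (f t).1 ≤ b ^ (f t).2
    · rw [if_pos h]
      simp only
      constructor
      · rw [pow_succ, mul_comm]
        exact Nat.mul_le_mul hab h
      · refine ih.2.trans (Nat.mul_le_mul_left _ ?_)
        exact Nat.pow_le_pow_right ha (by omega)
    · rw [if_neg h]
      simp only
      constructor
      · refine ih.1.trans (Nat.mul_le_mul_left _ ?_)
        exact Nat.pow_le_pow_right (by omega) (by omega)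
      · rw [pow_succ, mul_comm]
        exact Nat.mul_le_mul_left _ (by omega)

end Crest.Agent.R327
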