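import Crest.Agent.R327.Toep
import Crest.Agent.R327.Paths
import Crest.Agent.R327.Transfer

/-! Counting four-cycles for a fixed quadruple of paths. -/

namespace Crest.Agent.R327

open Finset MvPolynomial

/-- the variable index type -/
abbrev Io (n : ℕ) := Fin (n + 1) × Fin (n + 1) × Fin (n + 1)

/-- colouring of the variables induced by a colouring of the layers -/
def yv {n : ℕ} (yl : ℕ → Bool) (v : Io n) : Bool := yl v.1

theorem sum_range_wt (yl : ℕ → Bool) (d : ℕ) :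
    ∑ t ∈ range d, (if yl t then ((1, 0) : ℕ × ℕ) else (0, 1)) =
      (Nat.count (fun s => yl s = true) d, Nat.count (fun s => yl s = false) d) := by
  induction d with
  | zero => simp; rfl
  | succ d ih =>
    rw [Finset.sum_range_succ, ih, Nat.count_succ, Nat.count_succ]
    cases yl d <;> simp

theorem weight_gam {n : ℕ} (yl : ℕ → Bool) (π : Fin (n + 2) → Fin (n + 1)) :
    Finsupp.weight (wt (yv yl)) (gam π) =
      (Nat.count (fun s => yl s = true) (n + 1), Nat.count (fun s => yl s = false) (n + 1)) := by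
  rw [gam, map_sum, ← sum_range_wt,
    ← Fin.sum_univ_eq_sum_range (fun t => if yl t then ((1, 0) : ℕ × ℕ) else (0, 1))]
  refine Finset.sum_congr rfl fun t _ => ?_
  rw [Finsupp.weight_single, one_smul]
  rfl

theorem gam_edge {n : ℕ} (π π' : Fin (n + 2) → Fin (n + 1)) (t : Fin (n + 1)) :
    gam π (edge π' t) = if edge π t = edge π' t then 1 else 0 := gam_apply _ _

theorem pairing_of_sum {n : ℕ} {π₁ π₂ π₃ π₄ : Fin (n + 2) → Fin (n + 1)}
    (h : ∀ v, gam π₁ v + gam π₃ v = gam π₂ v + gam π₄ v) (t : Fin (n + 1)) :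
    (edge π₁ t = edge π₂ t ∧ edge π₃ t = edge π₄ t) ∨
      (edge π₁ t = edge π₄ t ∧ edge π₂ t = edge π₃ t) := by
  have h1 := h (edge π₁ t)
  have h3 := h (edge π₃ t)
  simp only [gam_edge, if_true] at h1 h3
  by_cases a : edge π₂ t = edge π₁ t
  · left
    refine ⟨a.symm, ?_⟩
    rw [a] at h3
    by_contra hc
    rw [if_neg (Ne.symm hc)] at h3
    omega
  · rw [if_neg a] at h1
    have b : edge π₄ t = edge π₁ t := by
      by_contra hc
      rw [if_neg hc] at h1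
      omega
    right
    refine ⟨b.symm, ?_⟩
    rw [b] at h3
    by_contra hc
    rw [if_neg hc] at h3
    omega

/-- weights of the two pairing patterns -/
noncomputable def al (yl : ℕ → Bool) (a : ℕ) (t : ℕ) : ℝ := if yl t then (a : ℝ)⁻¹ else 1

/-- weights of the two pairing patterns -/
noncomputable def be (yl : ℕ → Bool) (b : ℕ) (t : ℕ) : ℝ := if yl t then 1 else (b : ℝ)⁻¹

theorem al_nonneg (yl : ℕ → Bool) (a t : ℕ) : 0 ≤ al yl a t := by
  unfold al; split_ifs <;> positivity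

theorem be_nonneg (yl : ℕ → Bool) (b t : ℕ) : 0 ≤ be yl b t := by
  unfold be; split_ifs <;> positivity

theorem iA_nonneg {V : Type*} [DecidableEq V] (x : V × V × V × V) : 0 ≤ iA x := by
  unfold iA; split_ifs <;> norm_num

theorem iB_nonneg {V : Type*} [DecidableEq V] (x : V × V × V × V) : 0 ≤ iB x := by
  unfold iB; split_ifs <;> norm_num

theorem Om_nonneg {V : Type*} [DecidableEq V] {α β : ℝ} (hα : 0 ≤ α) (hβ : 0 ≤ β)
    (x x' : V × V × V × V) : 0 ≤ Om α β x x' := by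
  have := iA_nonneg x
  have := iA_nonneg x'
  have := iB_nonneg x
  have := iB_nonneg x'
  simp only [Om, Matrix.of_apply]
  positivity

theorem le_Om {n : ℕ} (yl : ℕ → Bool) (a b : ℕ) {π₁ π₂ π₃ π₄ : Fin (n + 2) → Fin (n + 1)}
    (t : Fin (n + 1))
    (h : (edge π₁ t = edge π₂ t ∧ edge π₃ t = edge π₄ t) ∨
      (edge π₁ t = edge π₄ t ∧ edge π₂ t = edge π₃ t)) :
    (if yl t = true ∧ edge π₁ t ≠ edge π₄ t then (a : ℝ)⁻¹ else 1) *
      (if yl t = false ∧ edge π₁ t ≠ edge π₂ t then (b : ℝ)⁻¹ else 1) ≤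
    Om (al yl a t) (be yl b t) (π₁ t.castSucc, π₂ t.castSucc, π₃ t.castSucc, π₄ t.castSucc)
      (π₁ t.succ, π₂ t.succ, π₃ t.succ, π₄ t.succ) := by
  have hA : (edge π₁ t = edge π₂ t ∧ edge π₃ t = edge π₄ t) →
      iA (π₁ t.castSucc, π₂ t.castSucc, π₃ t.castSucc, π₄ t.castSucc) *
        iA (π₁ t.succ, π₂ t.succ, π₃ t.succ, π₄ t.succ) = 1 := by
    intro h
    simp only [edge, Prod.mk.injEq, true_and] at h
    simp [iA, h]
  have hB : (edge π₁ t = edge π₄ t ∧ edge π₂ t = edge π₃ t) →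
      iB (π₁ t.castSucc, π₂ t.castSucc, π₃ t.castSucc, π₄ t.castSucc) *
        iB (π₁ t.succ, π₂ t.succ, π₃ t.succ, π₄ t.succ) = 1 := by
    intro h
    simp only [edge, Prod.mk.injEq, true_and] at h
    simp [iB, h]
  have n1 := mul_nonneg (iA_nonneg (π₁ t.castSucc, π₂ t.castSucc, π₃ t.castSucc, π₄ t.castSucc))
    (iA_nonneg (π₁ t.succ, π₂ t.succ, π₃ t.succ, π₄ t.succ))
  have n2 := mul_nonneg (iB_nonneg (π₁ t.castSucc, π₂ t.castSucc, π₃ t.castSucc, π₄ t.castSucc))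
    (iB_nonneg (π₁ t.succ, π₂ t.succ, π₃ t.succ, π₄ t.succ))
  have ha : (0 : ℝ) ≤ (a : ℝ)⁻¹ := by positivity
  have hb : (0 : ℝ) ≤ (b : ℝ)⁻¹ := by positivity
  simp only [Om, Matrix.of_apply, al, be]
  cases hy : yl t
  · simp only [Bool.false_eq_true, false_and, if_false, true_and, one_mul]
    by_cases h2 : edge π₁ t = edge π₂ t
    · have h3 : edge π₁ t = edge π₂ t ∧ edge π₃ t = edge π₄ t := by
        rcases h with h | h
        · exact h
        · exact ⟨h2, by rw [← h.2, ← h2, h.1]⟩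
      rw [if_neg (not_not.mpr h2), hA h3]
      have := mul_nonneg hb n2
      linarith
    · rw [if_pos h2, hB (h.resolve_left fun h => h2 h.1)]
      linarith
  · simp only [Bool.true_eq_false, false_and, if_false, true_and, one_mul, if_true, mul_one]
    by_cases h2 : edge π₁ t = edge π₄ t
    · have h3 : edge π₁ t = edge π₄ t ∧ edge π₂ t = edge π₃ t := by
        rcases h with h | h
        · exact ⟨h2, by rw [← h.1, h2, h.2]⟩
        · exact h
      rw [if_neg (not_not.mpr h2), hB h3]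
      have := mul_nonneg ha n1
      linarith
    · rw [if_pos h2, hA (h.resolve_right fun h => h2 h.1)]
      linarith

theorem edge_injective {n : ℕ} (π : Fin (n + 2) → Fin (n + 1)) : Function.Injective (edge π) :=
  fun _ _ h => congrArg Prod.fst h

theorem four_cycle {n : ℕ} (yl : ℕ → Bool) (F₁ F₂ : Type*) [Fintype F₁] [Fintype F₂]
    {l k m N₁ N₂ a b : ℕ}
    (hN₁ : Fintype.card (Io n ⊕ F₁) = N₁ + 1) (hN₂ : Fintype.card (Io n ⊕ F₂) = N₂ + 1)
    (ha : N₁ + l = a * l) (hb : N₂ + l = b * l) (ha1 : 1 ≤ a) (hb1 : 1 ≤ b)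
    (π₁ π₂ π₃ π₄ : Fin (n + 2) → Fin (n + 1)) :
    ∑ x : St (Io n) F₁ F₂ (l + k) l × St (Io n) F₁ F₂ (l + k) l ×
        St (Io n) F₁ F₂ l (l + m) × St (Io n) F₁ F₂ l (l + m),
      Emat (yv yl) F₁ F₂ ℝ (l + k) l l (l + m) (gam π₁) x.2.2.1 x.1 *
      Emat (yv yl) F₁ F₂ ℝ (l + k) l l (l + m) (gam π₂) x.2.2.1 x.2.1 *
      Emat (yv yl) F₁ F₂ ℝ (l + k) l l (l + m) (gam π₃) x.2.2.2 x.2.1 *
      Emat (yv yl) F₁ F₂ ℝ (l + k) l l (l + m) (gam π₄) x.2.2.2 x.1 ≤
    Dm N₁ l * Dm N₂ l * ∏ t : Fin (n + 1),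
      Om (al yl a t) (be yl b t) (π₁ t.castSucc, π₂ t.castSucc, π₃ t.castSucc, π₄ t.castSucc)
        (π₁ t.succ, π₂ t.succ, π₃ t.succ, π₄ t.succ) := by
  classical
  set T : Finset (St (Io n) F₁ F₂ (l + k) l × St (Io n) F₁ F₂ (l + k) l ×
        St (Io n) F₁ F₂ l (l + m) × St (Io n) F₁ F₂ l (l + m)) :=
    univ.filter fun x => Mv (yv yl) F₁ F₂ (gam π₁) x.2.2.1 x.1 ∧
      Mv (yv yl) F₁ F₂ (gam π₂) x.2.2.1 x.2.1 ∧ Mv (yv yl) F₁ F₂ (gam π₃) x.2.2.2 x.2.1 ∧
      Mv (yv yl) F₁ F₂ (gam π₄) x.2.2.2 x.1 with hT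
  have e0 : ∑ x : St (Io n) F₁ F₂ (l + k) l × St (Io n) F₁ F₂ (l + k) l ×
        St (Io n) F₁ F₂ l (l + m) × St (Io n) F₁ F₂ l (l + m),
      Emat (yv yl) F₁ F₂ ℝ (l + k) l l (l + m) (gam π₁) x.2.2.1 x.1 *
      Emat (yv yl) F₁ F₂ ℝ (l + k) l l (l + m) (gam π₂) x.2.2.1 x.2.1 *
      Emat (yv yl) F₁ F₂ ℝ (l + k) l l (l + m) (gam π₃) x.2.2.2 x.2.1 *
      Emat (yv yl) F₁ F₂ ℝ (l + k) l l (l + m) (gam π₄) x.2.2.2 x.1 = (T.card : ℝ) := by
    rw [hT, Finset.card_filter]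
    push_cast
    refine Finset.sum_congr rfl fun x _ => ?_
    simp only [Emat, Matrix.of_apply]
    by_cases h1 : Mv (yv yl) F₁ F₂ (gam π₁) x.2.2.1 x.1 <;>
    by_cases h2 : Mv (yv yl) F₁ F₂ (gam π₂) x.2.2.1 x.2.1 <;>
    by_cases h3 : Mv (yv yl) F₁ F₂ (gam π₃) x.2.2.2 x.2.1 <;>
    by_cases h4 : Mv (yv yl) F₁ F₂ (gam π₄) x.2.2.2 x.1 <;> simp [h1, h2, h3, h4]
  rw [e0]
  rcases T.eq_empty_or_nonempty with h0 | ⟨x₀, hx₀⟩
  · rw [h0]
    simp only [Finset.card_empty, Nat.cast_zero]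
    exact mul_nonneg (by positivity)
      (Finset.prod_nonneg fun t _ => Om_nonneg (al_nonneg _ _ _) (be_nonneg _ _ _) _ _)
  -- the pairing structure
  have hsum : ∀ v, gam π₁ v + gam π₃ v = gam π₂ v + gam π₄ v := by
    intro v
    simp only [hT, Finset.mem_filter, Finset.mem_univ, true_and] at hx₀
    obtain ⟨⟨a1, b1⟩, ⟨a2, b2⟩, ⟨a3, b3⟩, ⟨a4, b4⟩⟩ := hx₀
    have a1' := congrFun a1 (Sum.inl v)
    have a2' := congrFun a2 (Sum.inl v)
    have a3' := congrFun a3 (Sum.inl v)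
    have a4' := congrFun a4 (Sum.inl v)
    have b1' := congrFun b1 (Sum.inl v)
    have b2' := congrFun b2 (Sum.inl v)
    have b3' := congrFun b3 (Sum.inl v)
    have b4' := congrFun b4 (Sum.inl v)
    simp only [Pi.add_apply, prt, Sum.elim_inl] at a1' a2' a3' a4' b1' b2' b3' b4'
    cases hy : yv yl v
    · simp only [hy, if_true] at b1' b2' b3' b4'
      omega
    · simp only [hy, if_true] at a1' a2' a3' a4'
      omega
  have hpair := pairing_of_sum hsum
  set JY : Finset (Fin (n + 1)) := univ.filter fun t => yl t = true ∧ edge π₁ t ≠ edge π₄ t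
    with hJY
  set JZ : Finset (Fin (n + 1)) := univ.filter fun t => yl t = false ∧ edge π₁ t ≠ edge π₂ t
    with hJZ
  set TY := T.image fun x => x.2.2.1.1 with hTY
  set TZ := T.image fun x => x.1.2 with hTZ
  have cY : a ^ JY.card * TY.card ≤ Dm N₁ l := by
    have := card_filter_pos_le hN₁ ha ha1 (JY.image fun t => Sum.inl (edge π₄ t)) TY ?_
    · rwa [Finset.card_image_of_injective _
        (fun _ _ h => edge_injective π₄ (Sum.inl_injective h))] at this
    · intro α hα u hu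
      obtain ⟨x, hx, rfl⟩ := Finset.mem_image.mp hα
      obtain ⟨t, ht, rfl⟩ := Finset.mem_image.mp hu
      simp only [hT, Finset.mem_filter, Finset.mem_univ, true_and] at hx
      simp only [hJY, Finset.mem_filter, Finset.mem_univ, true_and] at ht
      obtain ⟨⟨a1, -⟩, -, -, ⟨a4, -⟩⟩ := hx
      have a1' := congrFun a1 (Sum.inl (edge π₄ t))
      have a4' := congrFun a4 (Sum.inl (edge π₄ t))
      have hy : yv yl (edge π₄ t) = true := ht.1
      simp only [Pi.add_apply, prt, Sum.elim_inl, hy, if_true, gam_edge, if_neg ht.2] at a1' a4'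
      omega
  have cZ : b ^ JZ.card * TZ.card ≤ Dm N₂ l := by
    have := card_filter_pos_le hN₂ hb hb1 (JZ.image fun t => Sum.inl (edge π₂ t)) TZ ?_
    · rwa [Finset.card_image_of_injective _
        (fun _ _ h => edge_injective π₂ (Sum.inl_injective h))] at this
    · intro α hα u hu
      obtain ⟨x, hx, rfl⟩ := Finset.mem_image.mp hα
      obtain ⟨t, ht, rfl⟩ := Finset.mem_image.mp hu
      simp only [hT, Finset.mem_filter, Finset.mem_univ, true_and] at hx
      simp only [hJZ, Finset.mem_filter, Finset.mem_univ, true_and] at ht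
      obtain ⟨⟨-, b1⟩, ⟨-, b2⟩, -, -⟩ := hx
      have b1' := congrFun b1 (Sum.inl (edge π₂ t))
      have b2' := congrFun b2 (Sum.inl (edge π₂ t))
      have hy : yv yl (edge π₂ t) = false := ht.1
      simp only [Pi.add_apply, prt, Sum.elim_inl, hy, if_true, gam_edge, if_neg ht.2] at b1' b2'
      omega
  have cT : T.card ≤ TY.card * TZ.card := by
    rw [← Finset.card_product]
    refine Finset.card_le_card_of_injOn (fun x => (x.2.2.1.1, x.1.2)) ?_ ?_
    · intro x hx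
      exact Finset.mem_coe.mpr (Finset.mem_product.mpr
        ⟨Finset.mem_image_of_mem _ hx, Finset.mem_image_of_mem _ hx⟩)
    · intro x hx x' hx' hxx
      simp only [hT, Finset.coe_filter, Finset.mem_univ, true_and, Set.mem_ofPred_eq] at hx hx'
      obtain ⟨⟨a1, b1⟩, ⟨a2, b2⟩, -, ⟨a4, b4⟩⟩ := hx
      obtain ⟨⟨a1', b1'⟩, ⟨a2', b2'⟩, -, ⟨a4', b4'⟩⟩ := hx'
      simp only [Prod.mk.injEq] at hxx
      obtain ⟨e1, e2⟩ := hxx
      have f1 : x.1.1 = x'.1.1 := Mon.ext (by rw [a1, a1', e1])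
      have f2 : x.2.1.1 = x'.2.1.1 := Mon.ext (by rw [a2, a2', e1])
      have f3 : x.2.2.2.1 = x'.2.2.2.1 := Mon.ext (by
        rw [f1, a4'] at a4
        exact (add_right_cancel a4).symm)
      have g1 : x.2.2.1.2 = x'.2.2.1.2 := Mon.ext (by rw [b1, b1', e2])
      have g2 : x.2.2.2.2 = x'.2.2.2.2 := Mon.ext (by rw [b4, b4', e2])
      have g3 : x.2.1.2 = x'.2.1.2 := Mon.ext (by
        rw [g1, b2'] at b2
        exact (add_right_cancel b2).symm)
      exact Prod.ext (Prod.ext f1 e2) (Prod.ext (Prod.ext f2 g3)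
        (Prod.ext (Prod.ext e1 g1) (Prod.ext f3 g2)))
  have ha0 : (0 : ℝ) < a := by exact_mod_cast ha1
  have hb0 : (0 : ℝ) < b := by exact_mod_cast hb1
  have cY' : (TY.card : ℝ) ≤ Dm N₁ l * ((a : ℝ)⁻¹) ^ JY.card := by
    rw [inv_pow, ← div_eq_mul_inv, le_div_iff₀ (by positivity), mul_comm]
    exact_mod_cast cY
  have cZ' : (TZ.card : ℝ) ≤ Dm N₂ l * ((b : ℝ)⁻¹) ^ JZ.card := by
    rw [inv_pow, ← div_eq_mul_inv, le_div_iff₀ (by positivity), mul_comm]
    exact_mod_cast cZ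
  have hprod : ((a : ℝ)⁻¹) ^ JY.card * ((b : ℝ)⁻¹) ^ JZ.card ≤ ∏ t : Fin (n + 1),
      Om (al yl a t) (be yl b t) (π₁ t.castSucc, π₂ t.castSucc, π₃ t.castSucc, π₄ t.castSucc)
        (π₁ t.succ, π₂ t.succ, π₃ t.succ, π₄ t.succ) := by
    rw [← Finset.prod_const, ← Finset.prod_const, hJY, hJZ, Finset.prod_filter, Finset.prod_filter,
      ← Finset.prod_mul_distrib]
    refine Finset.prod_le_prod (fun t _ => ?_) fun t _ => le_Om yl a b t (hpair t)
    split_ifs <;> positivity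
  calc (T.card : ℝ) ≤ TY.card * TZ.card := by exact_mod_cast cT
    _ ≤ (Dm N₁ l * ((a : ℝ)⁻¹) ^ JY.card) * (Dm N₂ l * ((b : ℝ)⁻¹) ^ JZ.card) := by gcongr
    _ = Dm N₁ l * Dm N₂ l * (((a : ℝ)⁻¹) ^ JY.card * ((b : ℝ)⁻¹) ^ JZ.card) := by ring
    _ ≤ _ := by gcongr

end Crest.Agent.R327
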