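import Mathlib

/-! Linear-algebra helpers: subadditivity of matrix rank, base change, the trace method. -/

namespace Crest.Agent.R327

open Matrix Module

section Rank

variable {K : Type*} [Field K] {m n : Type*} [Fintype m] [Fintype n]

theorem mrank_add_le (A B : Matrix m n K) : (A + B).rank ≤ A.rank + B.rank := by
  unfold Matrix.rank
  rw [Matrix.mulVecLin_add]
  calc finrank K (LinearMap.range (A.mulVecLin + B.mulVecLin))
      ≤ finrank K ↥(LinearMap.range A.mulVecLin ⊔ LinearMap.range B.mulVecLin) := by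
        apply Submodule.finrank_mono
        rintro _ ⟨x, rfl⟩
        exact Submodule.add_mem_sup ⟨x, rfl⟩ ⟨x, rfl⟩
    _ ≤ _ := Submodule.finrank_add_le_finrank_add_finrank _ _

theorem mrank_smul_le (c : K) (A : Matrix m n K) : (c • A).rank ≤ A.rank := by
  unfold Matrix.rank
  apply Submodule.finrank_mono
  rintro _ ⟨x, rfl⟩
  refine ⟨c • x, ?_⟩
  simp [Matrix.mulVec_smul, Matrix.smul_mulVec]

theorem mrank_sum_le {ι : Type*} (s : Finset ι) (A : ι → Matrix m n K) :
    (∑ i ∈ s, A i).rank ≤ ∑ i ∈ s, (A i).rank := by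
  classical
  induction s using Finset.induction_on with
  | empty => simp
  | insert a s ha ih =>
    rw [Finset.sum_insert ha, Finset.sum_insert ha]
    exact (mrank_add_le _ _).trans (by omega)

theorem mrank_map_algebraMap {L : Type*} [Field L] [Algebra K L] (A : Matrix m n K) :
    (A.map (algebraMap K L)).rank = A.rank := by
  classical
  obtain ⟨κ, a, ha, hspan, hli⟩ := exists_linearIndependent' K A.col
  haveI : Finite κ := Finite.of_injective a ha
  haveI : Fintype κ := Fintype.ofFinite κ
  have h1 : A.rank = Fintype.card κ := by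
    rw [Matrix.rank_eq_finrank_span_cols, ← hspan, finrank_span_eq_card hli]
  have hli' : LinearIndependent L (fun i => algebraMap K L ∘ (A.col ∘ a) i) :=
    linearIndependent_algebraMap_comp_iff.mpr hli
  have h2 : Submodule.span L (Set.range (A.map (algebraMap K L)).col) =
      Submodule.span L (Set.range (fun i => algebraMap K L ∘ (A.col ∘ a) i)) := by
    apply le_antisymm
    · rw [Submodule.span_le]
      rintro _ ⟨j, rfl⟩
      have hj : A.col j ∈ Submodule.span K (Set.range (A.col ∘ a)) := by
        rw [hspan]; exact Submodule.subset_span ⟨j, rfl⟩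
      obtain ⟨c, hc⟩ := (Submodule.mem_span_range_iff_exists_fun K).mp hj
      refine (Submodule.mem_span_range_iff_exists_fun L).mpr ⟨fun i => algebraMap K L (c i), ?_⟩
      funext x
      have := congrFun hc x
      simp only [Finset.sum_apply, Pi.smul_apply, smul_eq_mul, Function.comp_apply] at this ⊢
      simp only [Matrix.col_apply, Matrix.map_apply] at this ⊢
      rw [← this, map_sum]
      simp
    · apply Submodule.span_mono
      rintro _ ⟨i, rfl⟩
      exact ⟨a i, rfl⟩
  rw [Matrix.rank_eq_finrank_span_cols, h2, finrank_span_eq_card hli', h1]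

end Rank

/-- The trace method: `tr(G)^2 ≤ rank F * tr(G^2)` for the Gram matrix `G = Fᵀ F`. -/
theorem trace_sq_le_rank_mul {m n : Type*} [Fintype m] [Fintype n] (F : Matrix m n ℝ) :
    (Fᵀ * F).trace ^ 2 ≤ (F.rank : ℝ) * ((Fᵀ * F) * (Fᵀ * F)).trace := by
  classical
  set G := Fᵀ * F with hG
  have hH : G.IsHermitian := by
    have := Matrix.isHermitian_conjTranspose_mul_self F
    simpa [Matrix.conjTranspose_eq_transpose_of_trivial] using this
  have hr : F.rank = Fintype.card {i // hH.eigenvalues i ≠ 0} := by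
    rw [← Matrix.rank_transpose_mul_self F, hH.rank_eq_card_non_zero_eigs]
  have h1 : G.trace = ∑ i, hH.eigenvalues i := by
    simpa using hH.trace_eq_sum_eigenvalues
  have h2 : (G * G).trace = ∑ i, hH.eigenvalues i ^ 2 := by
    have hs := hH.spectral_theorem
    set U := hH.eigenvectorUnitary
    set D : Matrix n n ℝ := diagonal (RCLike.ofReal ∘ hH.eigenvalues) with hD
    have : G * G = (U : Matrix n n ℝ) * (D * D) * star (U : Matrix n n ℝ) := by
      conv_lhs => rw [hs]
      rw [← map_mul, Unitary.conjStarAlgAut_apply]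
    rw [this, Matrix.trace_mul_cycle]
    have hU : star (U : Matrix n n ℝ) * (U : Matrix n n ℝ) = 1 := by
      exact Unitary.coe_star_mul_self U
    rw [hU, one_mul, hD, diagonal_mul_diagonal, trace_diagonal]
    simp [sq]
  rw [h1, h2, hr]
  set s : Finset n := Finset.univ.filter (fun i => hH.eigenvalues i ≠ 0) with hs
  have e1 : ∑ i, hH.eigenvalues i = ∑ i ∈ s, hH.eigenvalues i := by
    rw [hs, Finset.sum_filter_ne_zero]
  have e2 : ∑ i ∈ s, hH.eigenvalues i ^ 2 ≤ ∑ i, hH.eigenvalues i ^ 2 :=
    Finset.sum_le_sum_of_subset_of_nonneg (Finset.subset_univ _) (fun _ _ _ => sq_nonneg _)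
  have e3 : Fintype.card {i // hH.eigenvalues i ≠ 0} = s.card := by
    rw [hs, Fintype.card_subtype]
  rw [e1, e3]
  calc (∑ i ∈ s, hH.eigenvalues i) ^ 2 ≤ s.card * ∑ i ∈ s, hH.eigenvalues i ^ 2 :=
        sq_sum_le_card_mul_sum_sq
    _ ≤ _ := by gcongr

end Crest.Agent.R327
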