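import Crest.Agent.R327.Cycles

/-! The rank lower bound for the matrix of the iterated matrix multiplication polynomial. -/

namespace Crest.Agent.R327

open Finset MvPolynomial Matrix Crest.ArithCircuit

variable {n : ℕ} (yl : ℕ → Bool) (F₁ F₂ : Type*) [Fintype F₁] [Fintype F₂] (l k m : ℕ)

/-- the matrix of the iterated matrix multiplication polynomial over any semiring -/
noncomputable def Fmat (R : Type*) [Semiring R] (n : ℕ) :
    Matrix (St (Io n) F₁ F₂ l (l + m)) (St (Io n) F₁ F₂ (l + k) l) R :=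
  ∑ π ∈ Pth n, Emat (yv yl) F₁ F₂ R (l + k) l l (l + m) (gam π)

theorem toep_imm (K : Type*) [Field K] :
    toep (yv yl) F₁ F₂ K (l + k) l l (l + m) (imm K (n + 1)) = Fmat yl F₁ F₂ l k m K n := by
  rw [imm_eq_sum, map_sum, Fmat]
  simp only [toep_monomial, one_smul]

theorem Fmat_map {R S : Type*} [Semiring R] [Semiring S] (f : R →+* S) :
    (Fmat yl F₁ F₂ l k m R n).map f = Fmat yl F₁ F₂ l k m S n := by
  ext r c
  simp only [Fmat, Matrix.map_apply, Matrix.sum_apply, map_sum, Emat, Matrix.of_apply]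
  refine Finset.sum_congr rfl fun π _ => ?_
  split_ifs <;> simp

theorem rank_Fmat (K : Type*) [Field K] [CharZero K] :
    (Fmat yl F₁ F₂ l k m K n).rank = (Fmat yl F₁ F₂ l k m ℝ n).rank := by
  rw [← Fmat_map yl F₁ F₂ l k m (algebraMap ℚ K), ← Fmat_map yl F₁ F₂ l k m (algebraMap ℚ ℝ),
    mrank_map_algebraMap, mrank_map_algebraMap]

theorem sum_Emat_ge {N₁ N₂ : ℕ}
    (hN₁ : Fintype.card (Io n ⊕ F₁) = N₁ + 1) (hN₂ : Fintype.card (Io n ⊕ F₂) = N₂ + 1)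
    (γ : Io n →₀ ℕ) (hγ : Finsupp.weight (wt (yv yl)) γ = (k, m)) :
    (Dm N₁ l * Dm N₂ l : ℝ) ≤
      ∑ x : St (Io n) F₁ F₂ (l + k) l × St (Io n) F₁ F₂ l (l + m),
        Emat (yv yl) F₁ F₂ ℝ (l + k) l l (l + m) γ x.2 x.1 := by
  classical
  rw [weight_wt _ F₁ F₂, Prod.mk.injEq] at hγ
  have e : ∑ x : St (Io n) F₁ F₂ (l + k) l × St (Io n) F₁ F₂ l (l + m),
        Emat (yv yl) F₁ F₂ ℝ (l + k) l l (l + m) γ x.2 x.1 =
      ((univ.filter fun x : St (Io n) F₁ F₂ (l + k) l × St (Io n) F₁ F₂ l (l + m) =>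
        Mv (yv yl) F₁ F₂ γ x.2 x.1).card : ℝ) := by
    rw [Finset.card_filter]
    push_cast
    rfl
  rw [e, ← card_Mon _ _ _ hN₁, ← card_Mon _ _ _ hN₂, ← Nat.cast_mul, ← Fintype.card_prod,
    ← Finset.card_univ, Nat.cast_le]
  refine Finset.card_le_card_of_injOn
    (fun z => ((⟨z.1.1 + prt (yv yl) true F₁ γ, by
        simp only [Pi.add_apply, Finset.sum_add_distrib, z.1.2, hγ.1]⟩, z.2),
      (z.1, ⟨z.2.1 + prt (yv yl) false F₂ γ, by
        simp only [Pi.add_apply, Finset.sum_add_distrib, z.2.2, hγ.2]⟩))) ?_ ?_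
  · intro z _
    simp only [Finset.coe_filter, Finset.mem_univ, true_and, Set.mem_ofPred_eq]
    exact ⟨rfl, rfl⟩
  · intro z _ z' _ h
    simp only [Prod.mk.injEq] at h
    exact Prod.ext h.2.1 h.1.2

theorem trace_lower {N₁ N₂ : ℕ}
    (hN₁ : Fintype.card (Io n ⊕ F₁) = N₁ + 1) (hN₂ : Fintype.card (Io n ⊕ F₂) = N₂ + 1)
    (hk : k = Nat.count (fun s => yl s = true) (n + 1))
    (hm : m = Nat.count (fun s => yl s = false) (n + 1)) :
    ((n + 1 : ℕ) : ℝ) ^ n * (Dm N₁ l * Dm N₂ l) ≤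
      ((Fmat yl F₁ F₂ l k m ℝ n)ᵀ * Fmat yl F₁ F₂ l k m ℝ n).trace := by
  classical
  set F := Fmat yl F₁ F₂ l k m ℝ n with hF
  have h1 : ∀ r c, F r c ≤ F r c * F r c := by
    intro r c
    rw [hF, ← Fmat_map yl F₁ F₂ l k m (Nat.castRingHom ℝ)]
    simp only [Matrix.map_apply, Nat.coe_castRingHom]
    exact_mod_cast Nat.le_mul_self _
  have h2 : (Fᵀ * F).trace = ∑ x : St (Io n) F₁ F₂ (l + k) l × St (Io n) F₁ F₂ l (l + m),
      F x.2 x.1 * F x.2 x.1 := by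
    simp only [Matrix.trace, Matrix.diag, Matrix.mul_apply, Matrix.transpose_apply,
      Fintype.sum_prod_type]
  rw [h2]
  refine le_trans ?_ (Finset.sum_le_sum fun x _ => h1 x.2 x.1)
  simp only [hF, Fmat, Matrix.sum_apply]
  rw [Finset.sum_comm]
  calc ((n + 1 : ℕ) : ℝ) ^ n * (Dm N₁ l * Dm N₂ l)
      ≤ (Pth n).card * (Dm N₁ l * Dm N₂ l) := by
        gcongr
        exact_mod_cast le_card_Pth n
    _ = ∑ _π ∈ Pth n, (Dm N₁ l * Dm N₂ l : ℝ) := by simp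
    _ ≤ _ := Finset.sum_le_sum fun π _ =>
        sum_Emat_ge yl F₁ F₂ l k m hN₁ hN₂ _ (by rw [weight_gam, hk, hm])

/-- quadruples of paths as paths in the fourth power -/
def quadEquiv (α V : Type*) : (α → V × V × V × V) ≃ (α → V) × (α → V) × (α → V) × (α → V) where
  toFun Q := (fun v => (Q v).1, fun v => (Q v).2.1, fun v => (Q v).2.2.1, fun v => (Q v).2.2.2)
  invFun x v := (x.1 v, x.2.1 v, x.2.2.1 v, x.2.2.2 v)
  left_inv _ := rfl
  right_inv _ := rfl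

theorem sum_four (f₁ f₂ f₃ f₄ : (Fin (n + 2) → Fin (n + 1)) → ℝ) :
    (∑ π ∈ Pth n, f₁ π) * (∑ π ∈ Pth n, f₂ π) * (∑ π ∈ Pth n, f₃ π) * (∑ π ∈ Pth n, f₄ π) =
      ∑ Q : Fin (n + 2) → Fin (n + 1) × Fin (n + 1) × Fin (n + 1) × Fin (n + 1),
        if Q 0 = (0, 0, 0, 0) ∧ Q (Fin.last (n + 1)) = (0, 0, 0, 0) then
          f₁ (fun v => (Q v).1) * f₂ (fun v => (Q v).2.1) * f₃ (fun v => (Q v).2.2.1) *
            f₄ (fun v => (Q v).2.2.2) else 0 := by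
  rw [← (quadEquiv _ _).symm.sum_comp]
  simp only [Pth, Finset.sum_filter]
  rw [mul_assoc, mul_assoc, Fintype.sum_mul_sum, Fintype.sum_prod_type, Finset.sum_mul]
  refine Finset.sum_congr rfl fun π₁ _ => ?_
  rw [Fintype.sum_prod_type, Finset.sum_mul, Finset.mul_sum]
  refine Finset.sum_congr rfl fun π₂ _ => ?_
  rw [Fintype.sum_prod_type, Finset.mul_sum, Finset.mul_sum]
  refine Finset.sum_congr rfl fun π₃ _ => ?_
  rw [Finset.mul_sum, Finset.mul_sum]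
  refine Finset.sum_congr rfl fun π₄ _ => ?_
  simp only [quadEquiv, Equiv.coe_fn_symm_mk, Prod.mk.injEq]
  by_cases h1 : π₁ 0 = 0 ∧ π₁ (Fin.last (n + 1)) = 0
  · by_cases h2 : π₂ 0 = 0 ∧ π₂ (Fin.last (n + 1)) = 0
    · by_cases h3 : π₃ 0 = 0 ∧ π₃ (Fin.last (n + 1)) = 0
      · by_cases h4 : π₄ 0 = 0 ∧ π₄ (Fin.last (n + 1)) = 0
        · rw [if_pos h1, if_pos h2, if_pos h3, if_pos h4, if_pos (by tauto)]
          ring
        · rw [if_neg h4, if_neg (c := _ ∧ _) (t := _ * f₄ _) (by tauto)]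
          simp
      · rw [if_neg h3, if_neg (c := _ ∧ _) (t := _ * f₄ _) (by tauto)]
        simp
    · rw [if_neg h2, if_neg (c := _ ∧ _) (t := _ * f₄ _) (by tauto)]
      simp
  · rw [if_neg h1, if_neg (c := _ ∧ _) (t := _ * f₄ _) (by tauto)]
    simp

theorem trace_upper {N₁ N₂ a b : ℕ}
    (hN₁ : Fintype.card (Io n ⊕ F₁) = N₁ + 1) (hN₂ : Fintype.card (Io n ⊕ F₂) = N₂ + 1)
    (ha : N₁ + l = a * l) (hb : N₂ + l = b * l) (ha1 : 1 ≤ a) (hb1 : 1 ≤ b) :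
    (((Fmat yl F₁ F₂ l k m ℝ n)ᵀ * Fmat yl F₁ F₂ l k m ℝ n) *
      ((Fmat yl F₁ F₂ l k m ℝ n)ᵀ * Fmat yl F₁ F₂ l k m ℝ n)).trace ≤
      Dm N₁ l * Dm N₂ l *
        Wm (V := Fin (n + 1)) (al yl a) (be yl b) (n + 1) (0, 0, 0, 0) (0, 0, 0, 0) := by
  classical
  set F := Fmat yl F₁ F₂ l k m ℝ n with hF
  have h2 : ((Fᵀ * F) * (Fᵀ * F)).trace =
      ∑ x : St (Io n) F₁ F₂ (l + k) l × St (Io n) F₁ F₂ (l + k) l ×
        St (Io n) F₁ F₂ l (l + m) × St (Io n) F₁ F₂ l (l + m),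
      F x.2.2.1 x.1 * F x.2.2.1 x.2.1 * F x.2.2.2 x.2.1 * F x.2.2.2 x.1 := by
    rw [Fintype.sum_prod_type]
    simp only [Matrix.trace, Matrix.diag]
    refine Finset.sum_congr rfl fun c _ => ?_
    rw [Fintype.sum_prod_type, Matrix.mul_apply]
    refine Finset.sum_congr rfl fun c' _ => ?_
    rw [Fintype.sum_prod_type, Matrix.mul_apply, Matrix.mul_apply, Fintype.sum_mul_sum]
    refine Finset.sum_congr rfl fun r _ => Finset.sum_congr rfl fun r' _ => ?_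
    simp only [Matrix.transpose_apply]
    ring
  rw [h2]
  simp only [hF, Fmat, Matrix.sum_apply, sum_four]
  rw [Finset.sum_comm, Wm, prod_ofFn_apply, Finset.mul_sum]
  refine Finset.sum_le_sum fun Q _ => ?_
  split_ifs
  · exact four_cycle yl F₁ F₂ hN₁ hN₂ ha hb ha1 hb1 _ _ _ _
  · simp

theorem rank_lower {N₁ N₂ a b : ℕ}
    (hN₁ : Fintype.card (Io n ⊕ F₁) = N₁ + 1) (hN₂ : Fintype.card (Io n ⊕ F₂) = N₂ + 1)
    (ha : N₁ + l = a * l) (hb : N₂ + l = b * l) (ha1 : 1 ≤ a) (hb1 : 1 ≤ b)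
    (hk : k = Nat.count (fun s => yl s = true) (n + 1))
    (hm : m = Nat.count (fun s => yl s = false) (n + 1))
    (hbal : ∀ t,
      a ^ (Nat.count (fun s => yl s = true) t) ≤ b * b ^ (Nat.count (fun s => yl s = false) t) ∧
      b ^ (Nat.count (fun s => yl s = false) t) ≤ b * a ^ (Nat.count (fun s => yl s = true) t)) :
    (Dm N₁ l * Dm N₂ l : ℝ) ≤ (Fmat yl F₁ F₂ l k m ℝ n).rank *
      ((1 + (b : ℝ) / (n + 1 : ℕ)) ^ n * (((a : ℝ)⁻¹) ^ k + ((b : ℝ)⁻¹) ^ m)) := by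
  have ha0 : (0 : ℝ) < a := by exact_mod_cast ha1
  have hb0 : (0 : ℝ) < b := by exact_mod_cast hb1
  have hn0 : (0 : ℝ) < ((n + 1 : ℕ) : ℝ) := by positivity
  have t1 := trace_lower yl F₁ F₂ l k m hN₁ hN₂ hk hm
  have t2 := trace_upper yl F₁ F₂ l k m hN₁ hN₂ ha hb ha1 hb1
  have t3 := trace_sq_le_rank_mul (Fmat yl F₁ F₂ l k m ℝ n)
  have hη : (b : ℝ) / (n + 1 : ℕ) * (Fintype.card (Fin (n + 1)) : ℝ) = b := by
    rw [Fintype.card_fin]
    field_simp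
  have t4 := transfer (V := Fin (n + 1)) (al yl a) (be yl b)
    (fun t => ((a : ℝ)⁻¹) ^ (Nat.count (fun s => yl s = true) t))
    (fun t => ((b : ℝ)⁻¹) ^ (Nat.count (fun s => yl s = false) t))
    (al_nonneg yl a) (be_nonneg yl b) (by simp) (by simp)
    (fun t => by
      simp only [Nat.count_succ, al]
      cases yl t <;> simp [pow_succ, mul_comm])
    (fun t => by
      simp only [Nat.count_succ, be]
      cases yl t <;> simp [pow_succ, mul_comm])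
    (η := (b : ℝ) / (n + 1 : ℕ)) (by positivity)
    (fun t => by
      rw [hη, inv_pow, inv_pow, ← div_eq_mul_inv, inv_eq_one_div, div_le_div_iff₀ (by positivity)
        (by positivity), one_mul]
      exact_mod_cast (hbal t).1)
    (fun t => by
      rw [hη, inv_pow, inv_pow, ← div_eq_mul_inv, inv_eq_one_div, div_le_div_iff₀ (by positivity)
        (by positivity), one_mul]
      exact_mod_cast (hbal t).2) 0 n
  simp only [← hk, ← hm, Fintype.card_fin] at t4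
  set D : ℝ := Dm N₁ l * Dm N₂ l with hD
  have hD0 : 0 < D := by
    have := Dm_pos N₁ l
    have := Dm_pos N₂ l
    positivity
  set N : ℝ := ((n + 1 : ℕ) : ℝ)
  set ρ : ℝ := ((Fmat yl F₁ F₂ l k m ℝ n).rank : ℝ)
  have hρ : 0 ≤ ρ := Nat.cast_nonneg _
  set Z : ℝ := (1 + (b : ℝ) / N) ^ n * (((a : ℝ)⁻¹) ^ k + ((b : ℝ)⁻¹) ^ m)
  have t5 : (N ^ n * D) ^ 2 ≤ ρ * (D * ((N ^ 2) ^ n * Z)) := by
    calc (N ^ n * D) ^ 2 ≤ _ := pow_le_pow_left₀ (by positivity) t1 2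
      _ ≤ _ := t3
      _ ≤ ρ * (D * ((N ^ 2 * (1 + (b : ℝ) / N)) ^ n * (((a : ℝ)⁻¹) ^ k + ((b : ℝ)⁻¹) ^ m))) := by
        gcongr
        exact t2.trans (mul_le_mul_of_nonneg_left t4 hD0.le)
      _ = _ := by rw [mul_pow]; ring
  have e : (N ^ n * D) ^ 2 = (D * (N ^ 2) ^ n) * D := by ring
  have e' : ρ * (D * ((N ^ 2) ^ n * Z)) = (D * (N ^ 2) ^ n) * (ρ * Z) := by ring
  rw [e, e'] at t5
  exact le_of_mul_le_mul_left t5 (by positivity)

end Crest.Agent.R327
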