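import Mathlib

/-! Counting exponent vectors of a fixed degree. -/

namespace Crest.Agent.R327

open Finset

/-- exponent vectors of total degree `p` on a finite type -/
@[ext] structure Mon (U : Type*) [Fintype U] (p : ℕ) where
  /-- the exponent vector -/
  val : U → ℕ
  /-- its degree -/
  deg : ∑ u, val u = p

/-- `Mon` as a subtype -/
def Mon.equivSub (U : Type*) [Fintype U] (p : ℕ) : {α : U → ℕ // ∑ u, α u = p} ≃ Mon U p where
  toFun α := ⟨α.1, α.2⟩
  invFun α := ⟨α.1, α.2⟩
  left_inv _ := rfl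
  right_inv _ := rfl

noncomputable instance instFintypeMon (U : Type*) [Fintype U] (p : ℕ) : Fintype (Mon U p) := by
  classical
  exact Fintype.ofEquiv _ ((Sym.equivNatSumOfFintype U p).trans (Mon.equivSub U p))

noncomputable instance instDecEqMon (U : Type*) [Fintype U] (p : ℕ) : DecidableEq (Mon U p) :=
  Classical.decEq _

/-- number of monomials of degree `p` in `N + 1` variables -/
def Dm (N p : ℕ) : ℕ := (N + p).choose p

theorem card_Mon (U : Type*) [Fintype U] (N p : ℕ) (h : Fintype.card U = N + 1) :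
    Fintype.card (Mon U p) = Dm N p := by
  classical
  have : Fintype.card (Mon U p) = Fintype.card (Sym U p) :=
    (Fintype.card_congr ((Sym.equivNatSumOfFintype U p).trans (Mon.equivSub U p))).symm
  rw [this, Sym.card_sym_eq_choose, h, Dm]
  congr 1
  omega

theorem Dm_pos (N p : ℕ) : 0 < Dm N p := Nat.choose_pos (by omega)

theorem Dm_succ (N p : ℕ) : Dm N (p + 1) * (p + 1) = (N + p + 1) * Dm N p := by
  unfold Dm
  rw [← add_assoc, Nat.add_one_mul_choose_eq]

theorem Dm_succ_le {N a l p : ℕ} (h : N + l = a * l) (hp : l ≤ p + 1) (ha : 1 ≤ a) :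
    Dm N (p + 1) ≤ a * Dm N p := by
  have h1 := Dm_succ N p
  have h2 : N + p + 1 ≤ a * (p + 1) := by
    obtain ⟨c, hc⟩ := Nat.exists_eq_add_of_le hp
    obtain ⟨a', rfl⟩ := Nat.exists_eq_add_of_le ha
    rw [add_assoc, hc]
    nlinarith [Nat.zero_le (a' * c)]
  apply Nat.le_of_mul_le_mul_right _ (Nat.succ_pos p)
  calc Dm N (p + 1) * (p + 1) = (N + p + 1) * Dm N p := h1
    _ ≤ a * (p + 1) * Dm N p := Nat.mul_le_mul_right _ h2
    _ = a * Dm N p * (p + 1) := by ring

theorem le_Dm_succ {N a l p : ℕ} (h : N + l = a * l) (hp : p + 1 ≤ l) (ha : 1 ≤ a) :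
    a * Dm N p ≤ Dm N (p + 1) := by
  have h1 := Dm_succ N p
  have h2 : a * (p + 1) ≤ N + p + 1 := by
    obtain ⟨c, hc⟩ := Nat.exists_eq_add_of_le hp
    obtain ⟨a', rfl⟩ := Nat.exists_eq_add_of_le ha
    rw [hc] at h
    nlinarith [Nat.zero_le (a' * c)]
  apply Nat.le_of_mul_le_mul_right _ (Nat.succ_pos p)
  calc a * Dm N p * (p + 1) = a * (p + 1) * Dm N p := by ring
    _ ≤ (N + p + 1) * Dm N p := Nat.mul_le_mul_right _ h2
    _ = Dm N (p + 1) * (p + 1) := h1.symm

theorem Dm_add_le {N a l : ℕ} (h : N + l = a * l) (ha : 1 ≤ a) (i : ℕ) :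
    Dm N (l + i) ≤ a ^ i * Dm N l := by
  induction i with
  | zero => simp
  | succ i ih =>
    calc Dm N (l + (i + 1)) = Dm N (l + i + 1) := rfl
      _ ≤ a * Dm N (l + i) := Dm_succ_le h (by omega) ha
      _ ≤ a * (a ^ i * Dm N l) := Nat.mul_le_mul_left _ ih
      _ = _ := by ring

theorem Dm_sub_le {N a l : ℕ} (h : N + l = a * l) (ha : 1 ≤ a) (j : ℕ) (hj : j ≤ l) :
    a ^ j * Dm N (l - j) ≤ Dm N l := by
  induction j with
  | zero => simp
  | succ j ih =>
    have e : l - j = (l - (j + 1)) + 1 := by omega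
    calc a ^ (j + 1) * Dm N (l - (j + 1)) = a ^ j * (a * Dm N (l - (j + 1))) := by ring
      _ ≤ a ^ j * Dm N (l - (j + 1) + 1) :=
          Nat.mul_le_mul_left _ (le_Dm_succ h (by omega) ha)
      _ = a ^ j * Dm N (l - j) := by rw [← e]
      _ ≤ _ := ih (by omega)

/-- exponent vectors that are positive on `S` are rare -/
theorem card_filter_pos_le {U : Type*} [Fintype U] {N a l : ℕ} (hU : Fintype.card U = N + 1)
    (h : N + l = a * l) (ha : 1 ≤ a) (S : Finset U) (T : Finset (Mon U l))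
    (hT : ∀ α ∈ T, ∀ u ∈ S, 1 ≤ α.1 u) : a ^ S.card * T.card ≤ Dm N l := by
  classical
  rcases T.eq_empty_or_nonempty with rfl | ⟨α₀, hα₀⟩
  · simp
  have key : ∀ α ∈ T, ∑ u, (α.1 u - if u ∈ S then 1 else 0) + S.card = l := by
    intro α hα
    have : S.card = ∑ u, (if u ∈ S then 1 else 0) := by simp
    rw [this, ← Finset.sum_add_distrib]
    refine Eq.trans (Finset.sum_congr rfl fun u _ => ?_) α.2
    split_ifs with hu
    · have := hT α hα u hu; omega
    · simp
  have hS : S.card ≤ l := by have := key α₀ hα₀; omega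
  have hc : T.card ≤ Dm N (l - S.card) := by
    rw [← card_Mon U N _ hU, ← Fintype.card_coe T]
    refine Fintype.card_le_of_injective
      (fun α => (⟨fun u => α.1.1 u - if u ∈ S then 1 else 0, by
        have := key α.1 α.2
        exact Nat.eq_sub_of_add_eq this⟩ : Mon U (l - S.card))) ?_
    intro α β hαβ
    have h1 := congrArg Mon.val hαβ
    apply Subtype.ext
    apply Mon.ext
    funext u
    have h2 := congrFun h1 u
    simp only at h2
    split_ifs at h2 with hu
    · have := hT α.1 α.2 u hu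
      have := hT β.1 β.2 u hu
      omega
    · simpa using h2
  calc a ^ S.card * T.card ≤ a ^ S.card * Dm N (l - S.card) := Nat.mul_le_mul_left _ hc
    _ ≤ _ := Dm_sub_le h ha _ hS

end Crest.Agent.R327
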