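import Crest.Agent.R327.Upper

/-! Numerical estimates. -/

namespace Crest.Agent.R327

open Finset

theorem phi_mid {A δ : ℝ} {t D : ℕ} (hA : 0 ≤ A) (hδ : 0 ≤ δ) (h1 : A / 4 ≤ t * δ)
    (h2 : t * δ ≤ 3 * A / 4) (ht : (2 * t + 1 : ℝ) ≤ 3 * Real.exp A) (hD1 : t ≤ D)
    (hD2 : D ≤ 2 * t) : phi A (A + δ) D ≤ 8 * Real.exp (-A / 16) := by
  have key : ∀ i ∈ range (D + 1),
      Real.exp (-|(i : ℝ) * A - ((D - i : ℕ) : ℝ) * (A + δ)| / 2) ≤
        Real.exp (-A / 16) * ((if i ∈ Icc (D / 2 - 1) (D / 2 + 1) then 1 else 0) +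
          Real.exp (-A)) := by
    intro i hi
    have hiD : i ≤ D := by simpa [Nat.lt_succ_iff] using hi
    obtain ⟨j, rfl⟩ := Nat.exists_eq_add_of_le hiD
    rw [Nat.add_sub_cancel_left]
    have hD1' : (t : ℝ) ≤ i + j := by exact_mod_cast hD1
    have hD2' : (i + j : ℝ) ≤ 2 * t := by exact_mod_cast hD2
    have hi0 : (0 : ℝ) ≤ i := Nat.cast_nonneg _
    have hj0 : (0 : ℝ) ≤ j := Nat.cast_nonneg _
    have hjδ : 0 ≤ j * δ := by positivity
    have c1 : ∀ c : ℕ, j + c ≤ i → c * A - 3 * A / 4 ≤ |(i : ℝ) * A - j * (A + δ)| := by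
      intro c hc
      have hc' : (j + c : ℝ) ≤ i := by exact_mod_cast hc
      have hc0 : (0 : ℝ) ≤ c := Nat.cast_nonneg _
      have : j * δ ≤ t * δ := mul_le_mul_of_nonneg_right (by linarith) hδ
      have : (j + c) * A ≤ i * A := mul_le_mul_of_nonneg_right hc' hA
      refine le_trans ?_ (le_abs_self _)
      nlinarith
    have c2 : ∀ c : ℕ, i + c ≤ j → c * A ≤ |(i : ℝ) * A - j * (A + δ)| := by
      intro c hc
      have hc' : (i + c : ℝ) ≤ j := by exact_mod_cast hc
      have : (i + c) * A ≤ j * A := mul_le_mul_of_nonneg_right hc' hA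
      refine le_trans ?_ (neg_le_abs _)
      nlinarith
    split_ifs with h
    · have c3 : A / 8 ≤ |(i : ℝ) * A - j * (A + δ)| := by
        rcases lt_trichotomy i j with h | h | h
        · have := c2 1 h
          push_cast at this
          linarith
        · subst h
          have : t * δ ≤ (i + i) * δ := mul_le_mul_of_nonneg_right hD1' hδ
          refine le_trans ?_ (neg_le_abs _)
          nlinarith
        · have := c1 1 h
          push_cast at this
          linarith
      calc _ ≤ Real.exp (-A / 16) := Real.exp_le_exp.mpr (by linarith)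
        _ ≤ _ := le_mul_of_one_le_right (Real.exp_pos _).le
          (by linarith [(Real.exp_pos (-A)).le])
    · have c3 : 2 * A + A / 8 ≤ |(i : ℝ) * A - j * (A + δ)| := by
        rw [Finset.mem_Icc] at h
        rcases le_total i j with h' | h'
        · have := c2 3 (by omega)
          push_cast at this
          linarith
        · have := c1 3 (by omega)
          push_cast at this
          linarith
      rw [zero_add, ← Real.exp_add]
      exact Real.exp_le_exp.mpr (by linarith)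
  refine (Finset.sum_le_sum key).trans ?_
  rw [← Finset.mul_sum, mul_comm, Finset.sum_add_distrib]
  gcongr
  have a1 : ∑ i ∈ range (D + 1), (if i ∈ Icc (D / 2 - 1) (D / 2 + 1) then (1 : ℝ) else 0) ≤ 3 := by
    rw [Finset.sum_boole]
    have : ((range (D + 1)).filter fun i => i ∈ Icc (D / 2 - 1) (D / 2 + 1)).card ≤ 3 := by
      refine (Finset.card_le_card (t := Icc (D / 2 - 1) (D / 2 + 1)) ?_).trans ?_
      · intro i hi
        exact (Finset.mem_filter.mp hi).2
      · rw [Nat.card_Icc]; omega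
    exact_mod_cast this
  have a2 : ∑ _i ∈ range (D + 1), Real.exp (-A) ≤ 3 := by
    rw [Finset.sum_const, Finset.card_range, nsmul_eq_mul, Real.exp_neg, ← div_eq_mul_inv,
      div_le_iff₀ (Real.exp_pos _)]
    have : (D : ℝ) ≤ 2 * t := by exact_mod_cast hD2
    push_cast
    linarith
  linarith

theorem phi_one {A δ : ℝ} (hA : 0 ≤ A) (hδ : 0 ≤ δ) :
    phi A (A + δ) 1 ≤ 8 * Real.exp (-A / 16) := by
  have e : phi A (A + δ) 1 = Real.exp (-(A + δ) / 2) + Real.exp (-A / 2) := by
    simp only [phi, Finset.sum_range_succ, Finset.range_zero, Finset.sum_empty, zero_add,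
      Nat.cast_zero, zero_mul, Nat.sub_zero, Nat.cast_one, one_mul, zero_sub, abs_neg,
      Nat.sub_self, sub_zero, abs_of_nonneg hA, abs_of_nonneg (add_nonneg hA hδ)]
  have h1 : Real.exp (-(A + δ) / 2) ≤ Real.exp (-A / 16) := Real.exp_le_exp.mpr (by linarith)
  have h2 : Real.exp (-A / 2) ≤ Real.exp (-A / 16) := Real.exp_le_exp.mpr (by linarith)
  have := Real.exp_pos (-A / 16)
  linarith

theorem eight_le_exp_three : (8 : ℝ) ≤ Real.exp 3 := by
  have h : (2 : ℝ) ≤ Real.exp 1 := by linarith [Real.add_one_le_exp (1 : ℝ)]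
  calc (8 : ℝ) = 2 ^ 3 := by norm_num
    _ ≤ Real.exp 1 ^ 3 := by gcongr
    _ = Real.exp 3 := by rw [← Real.exp_nat_mul]; norm_num

/-- choice of the second base -/
theorem exists_base {a : ℕ} (ha : 1000 ≤ Real.log a) :
    ∃ b : ℕ, a ≤ b ∧ b ≤ 2 * a ∧ Real.log a / 4 ≤ a * (Real.log b - Real.log a) ∧
      a * (Real.log b - Real.log a) ≤ 3 * Real.log a / 4 := by
  set A := Real.log a with hA
  have ha0 : (0 : ℝ) < a := by
    rcases Nat.eq_zero_or_pos a with h | h
    · rw [h] at hA; simp at hA; linarith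
    · exact_mod_cast h
  have hAa : A ≤ a - 1 := Real.log_le_sub_one_of_pos ha0
  set e := ⌈A / 2⌉₊ with he
  have he1 : A / 2 ≤ e := Nat.le_ceil _
  have he2 : (e : ℝ) < A / 2 + 1 := Nat.ceil_lt_add_one (by linarith)
  have hea : (e : ℝ) ≤ a := by linarith
  have hb0 : (0 : ℝ) < a + e := by positivity
  refine ⟨a + e, by omega, ?_, ?_, ?_⟩
  · have : e ≤ a := by exact_mod_cast hea
    omega
  · push_cast
    rw [← Real.log_div hb0.ne' ha0.ne']
    have h1 := Real.one_sub_inv_le_log_of_pos (div_pos hb0 ha0)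
    have h2 : (1 : ℝ) - (((a : ℝ) + e) / a)⁻¹ = e / (a + e) := by field_simp; ring
    have h3 : (e : ℝ) / 2 ≤ a * (e / (a + e)) := by
      rw [← mul_div_assoc, div_le_div_iff₀ (by norm_num) hb0]
      nlinarith [Nat.cast_nonneg (α := ℝ) e]
    have h4 : a * (e / (a + e) : ℝ) ≤ a * Real.log ((a + e) / a) := by
      rw [← h2]; gcongr
    linarith
  · push_cast
    rw [← Real.log_div hb0.ne' ha0.ne']
    have h1 := Real.log_le_sub_one_of_pos (div_pos hb0 ha0)
    have h2 : (a : ℝ) * ((a + e) / a - 1) = e := by field_simp; ring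
    have h4 : a * Real.log ((a + e) / a) ≤ a * ((a + e) / a - 1) := by gcongr
    linarith

/-- the final inequality -/
theorem final_ineq {n t b : ℕ} {s : ℝ} (hs : 0 ≤ s) (ht : 1000 ≤ Real.log t) (hn0 : 1 ≤ n)
    (hn : n < (t + 1) * (t + 1)) (hb : b ≤ 2 * t)
    (h : 1 ≤ s ^ 2 * (2 * (n + 1) * (8 * Real.exp (-Real.log t / 16)) ^ (t / 2)) *
      (Real.exp b * (2 * b))) : (n : ℝ) ^ (Real.sqrt n / 400) ≤ s := by
  set A := Real.log t with hA
  have ht0 : (0 : ℝ) < t := by
    rcases Nat.eq_zero_or_pos t with h | h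
    · rw [h] at hA; simp at hA; linarith
    · exact_mod_cast h
  have hAt : A ≤ t - 1 := Real.log_le_sub_one_of_pos ht0
  have hn0' : (0 : ℝ) < n := by exact_mod_cast hn0
  have hn' : (n : ℝ) + 1 ≤ (t + 1) ^ 2 := by
    have : n + 1 ≤ (t + 1) ^ 2 := by rw [sq]; omega
    exact_mod_cast this
  have hb' : (b : ℝ) ≤ 2 * t := by exact_mod_cast hb
  have hsq : Real.sqrt n ≤ t + 1 := Real.sqrt_le_iff.mpr ⟨by positivity, by linarith⟩
  have hlog : Real.log n ≤ 2 * (A + 1) := by
    have h1 : Real.log n ≤ Real.log ((2 * t) ^ 2) :=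
      Real.log_le_log hn0' (by nlinarith)
    rw [Real.log_pow, Real.log_mul (by norm_num) ht0.ne'] at h1
    have : Real.log 2 ≤ 1 := by linarith [Real.log_le_sub_one_of_pos (x := 2) (by norm_num)]
    push_cast at h1
    linarith
  have hlog0 : 0 ≤ Real.log n := Real.log_nonneg (by exact_mod_cast hn0)
  by_contra hc
  push Not at hc
  have a1 : s ^ 2 < Real.exp ((t + 1) * (A + 1) / 100) := by
    calc s ^ 2 < ((n : ℝ) ^ (Real.sqrt n / 400)) ^ 2 := by gcongr
      _ = Real.exp (Real.sqrt n * Real.log n / 200) := by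
        rw [Real.rpow_def_of_pos hn0', ← Real.exp_nat_mul]
        congr 1
        push_cast
        ring
      _ ≤ _ := by
        apply Real.exp_le_exp.mpr
        have : Real.sqrt n * Real.log n ≤ (t + 1) * (2 * (A + 1)) :=
          mul_le_mul hsq hlog hlog0 (by positivity)
        linarith
  have a2 : (n : ℝ) + 1 ≤ Real.exp (2 * t) := by
    calc (n : ℝ) + 1 ≤ (t + 1) ^ 2 := hn'
      _ ≤ Real.exp t ^ 2 := by gcongr; exact Real.add_one_le_exp _
      _ = _ := by rw [← Real.exp_nat_mul]; norm_num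
  have a3 : (8 * Real.exp (-A / 16)) ^ (t / 2) ≤ Real.exp ((t - 1) / 2 * (3 - A / 16)) := by
    calc (8 * Real.exp (-A / 16)) ^ (t / 2) ≤ (Real.exp 3 * Real.exp (-A / 16)) ^ (t / 2) := by
          gcongr; exact eight_le_exp_three
      _ = Real.exp (((t / 2 : ℕ) : ℝ) * (3 - A / 16)) := by
          rw [← Real.exp_add, ← Real.exp_nat_mul]
          congr 2
          ring
      _ ≤ _ := by
          apply Real.exp_le_exp.mpr
          have h1 : ((t : ℝ) - 1) / 2 ≤ ((t / 2 : ℕ) : ℝ) := by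
            have : t ≤ 2 * (t / 2) + 1 := by omega
            have : (t : ℝ) ≤ 2 * ((t / 2 : ℕ) : ℝ) + 1 := by exact_mod_cast this
            linarith
          exact mul_le_mul_of_nonpos_right h1 (by linarith)
  have a4 : Real.exp b ≤ Real.exp (2 * t) := Real.exp_le_exp.mpr hb'
  have a5 : (4 * b : ℝ) ≤ Real.exp (8 * t) := by
    linarith [Real.add_one_le_exp (8 * t : ℝ)]
  have hb0 : (0 : ℝ) ≤ b := Nat.cast_nonneg _
  have a6 : s ^ 2 * (2 * (n + 1) * (8 * Real.exp (-A / 16)) ^ (t / 2)) * (Real.exp b * (2 * b)) <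
      Real.exp ((t + 1) * (A + 1) / 100) * Real.exp (2 * t) *
        Real.exp ((t - 1) / 2 * (3 - A / 16)) * Real.exp (2 * t) * Real.exp (8 * t) := by
    calc _ = s ^ 2 * (n + 1) * (8 * Real.exp (-A / 16)) ^ (t / 2) * Real.exp b * (4 * b) := by ring
      _ ≤ s ^ 2 * Real.exp (2 * t) *
        Real.exp ((t - 1) / 2 * (3 - A / 16)) * Real.exp (2 * t) * Real.exp (8 * t) := by gcongr
      _ < _ := by gcongr
  rw [← Real.exp_add, ← Real.exp_add, ← Real.exp_add, ← Real.exp_add] at a6
  have a7 : (t + 1) * (A + 1) / 100 + 2 * t + (t - 1) / 2 * (3 - A / 16) + 2 * t + 8 * t ≤ 0 := by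
    have b1 : 1000 * t ≤ A * t := mul_le_mul_of_nonneg_right ht ht0.le
    have b2 : A * 1000 ≤ A * t := mul_le_mul_of_nonneg_left (by linarith) (by linarith)
    nlinarith
  have := Real.exp_le_one_iff.mpr a7
  linarith

end Crest.Agent.R327
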