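import Crest.Agent.R327.Mon
import Crest.Agent.R327.LinAlg

/-! The two-sided shifted (Toeplitz-type) matrix attached to a polynomial. -/

namespace Crest.Agent.R327

open Finset MvPolynomial

variable {ι : Type*} [Fintype ι] (y : ι → Bool) (F₁ F₂ : Type*) [Fintype F₁] [Fintype F₂]

/-- the part of a monomial on the variables of colour `s`, padded by zeros on dummy variables -/
def prt (s : Bool) (F : Type*) (γ : ι →₀ ℕ) : ι ⊕ F → ℕ :=
  Sum.elim (fun v => if y v = s then γ v else 0) (fun _ => 0)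

theorem prt_add (s : Bool) (F : Type*) (γ δ : ι →₀ ℕ) :
    prt y s F (γ + δ) = prt y s F γ + prt y s F δ := by
  funext u
  cases u with
  | inl v => by_cases h : y v = s <;> simp [prt, h]
  | inr f => simp [prt]

/-- bidegree weights -/
def wt (v : ι) : ℕ × ℕ := if y v then (1, 0) else (0, 1)

theorem weight_wt (γ : ι →₀ ℕ) :
    Finsupp.weight (wt y) γ = (∑ u, prt y true F₁ γ u, ∑ u, prt y false F₂ γ u) := by
  rw [Finsupp.weight_apply, Finsupp.sum_fintype _ _ (by simp)]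
  simp only [Fintype.sum_sum_type, prt, Sum.elim_inl, Sum.elim_inr, Finset.sum_const_zero,
    add_zero]
  ext
  · rw [Prod.fst_sum]
    refine Finset.sum_congr rfl fun v _ => ?_
    by_cases h : y v <;> simp [wt, h]
  · rw [Prod.snd_sum]
    refine Finset.sum_congr rfl fun v _ => ?_
    by_cases h : y v <;> simp [wt, h]

theorem weight_wt_add (γ : ι →₀ ℕ) :
    (Finsupp.weight (wt y) γ).1 + (Finsupp.weight (wt y) γ).2 = γ.degree := by
  rw [Finsupp.weight_apply, Finsupp.sum_fintype _ _ (by simp), Prod.fst_sum, Prod.snd_sum,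
    ← Finset.sum_add_distrib, Finsupp.degree_eq_sum]
  refine Finset.sum_congr rfl fun v _ => ?_
  by_cases h : y v <;> simp [wt, h]

/-- states of bidegree `(p, q)` -/
abbrev St (ι : Type*) [Fintype ι] (F₁ F₂ : Type*) [Fintype F₁] [Fintype F₂] (p q : ℕ) :=
  Mon (ι ⊕ F₁) p × Mon (ι ⊕ F₂) q

/-- the monomial `γ` moves state `c` to state `r` -/
def Mv {p q p' q' : ℕ} (γ : ι →₀ ℕ) (r : St ι F₁ F₂ p' q') (c : St ι F₁ F₂ p q) : Prop :=
  c.1.1 = r.1.1 + prt y true F₁ γ ∧ r.2.1 = c.2.1 + prt y false F₂ γ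

open Classical in
/-- the `0/1` matrix of a monomial -/
noncomputable def Emat (R : Type*) [Zero R] [One R] (p q p' q' : ℕ) (γ : ι →₀ ℕ) :
    Matrix (St ι F₁ F₂ p' q') (St ι F₁ F₂ p q) R :=
  Matrix.of fun r c => if Mv y F₁ F₂ γ r c then 1 else 0

theorem Mv.deg {p q p' q' : ℕ} {γ : ι →₀ ℕ} {r : St ι F₁ F₂ p' q'} {c : St ι F₁ F₂ p q}
    (h : Mv y F₁ F₂ γ r c) :
    p = p' + (Finsupp.weight (wt y) γ).1 ∧ q' = q + (Finsupp.weight (wt y) γ).2 := by
  rw [weight_wt y F₁ F₂]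
  obtain ⟨h1, h2⟩ := h
  constructor
  · have := c.1.2
    rw [h1] at this
    simp only [Pi.add_apply, Finset.sum_add_distrib, r.1.2] at this
    exact this.symm
  · have := r.2.2
    rw [h2] at this
    simp only [Pi.add_apply, Finset.sum_add_distrib, c.2.2] at this
    exact this.symm

theorem Emat_add {R : Type*} [Semiring R] {p q p' q' p'' q'' : ℕ} (γ δ : ι →₀ ℕ)
    (h1 : p = p'' + (Finsupp.weight (wt y) γ).1) (h2 : q'' = q + (Finsupp.weight (wt y) γ).2) :
    Emat y F₁ F₂ R p q p' q' (γ + δ) =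
      Emat y F₁ F₂ R p'' q'' p' q' δ * Emat y F₁ F₂ R p q p'' q'' γ := by
  classical
  ext r c
  rw [weight_wt y F₁ F₂] at h1 h2
  simp only at h1 h2
  simp only [Emat, Matrix.of_apply, Matrix.mul_apply]
  by_cases h : Mv y F₁ F₂ (γ + δ) r c
  · rw [if_pos h]
    obtain ⟨ha, hb⟩ := h
    rw [prt_add] at ha hb
    let m : St ι F₁ F₂ p'' q'' :=
      (⟨r.1.1 + prt y true F₁ δ, by
        have := c.1.2
        rw [ha] at this
        simp only [Pi.add_apply, Finset.sum_add_distrib] at this ⊢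
        omega⟩,
       ⟨c.2.1 + prt y false F₂ γ, by
        have := c.2.2
        simp only [Pi.add_apply, Finset.sum_add_distrib] at this ⊢
        omega⟩)
    rw [Finset.sum_eq_single m]
    · rw [if_pos, if_pos, one_mul]
      · exact ⟨by simp only [m, ha]; abel, rfl⟩
      · exact ⟨rfl, by simp only [m, hb]; abel⟩
    · intro b _ hb'
      by_cases h3 : Mv y F₁ F₂ δ r b
      · by_cases h4 : Mv y F₁ F₂ γ b c
        · exfalso
          apply hb'
          ext1
          · ext1; exact h3.1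
          · ext1; exact h4.2
        · simp [h4]
      · simp [h3]
    · simp
  · rw [if_neg h]
    symm
    refine Finset.sum_eq_zero fun b _ => ?_
    by_cases h3 : Mv y F₁ F₂ δ r b
    · by_cases h4 : Mv y F₁ F₂ γ b c
      · exfalso
        apply h
        constructor
        · rw [prt_add, h4.1, h3.1]; abel
        · rw [prt_add, h3.2, h4.2]; abel
      · simp [h4]
    · simp [h3]

variable (K : Type*) [Field K]

/-- the matrix attached to a polynomial -/
noncomputable def toep (p q p' q' : ℕ) :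
    MvPolynomial ι K →ₗ[K] Matrix (St ι F₁ F₂ p' q') (St ι F₁ F₂ p q) K :=
  (MvPolynomial.basisMonomials ι K).constr K (Emat y F₁ F₂ K p q p' q')

theorem toep_monomial (p q p' q' : ℕ) (γ : ι →₀ ℕ) (c : K) :
    toep y F₁ F₂ K p q p' q' (monomial γ c) = c • Emat y F₁ F₂ K p q p' q' γ := by
  have : (monomial γ c : MvPolynomial ι K) = c • MvPolynomial.basisMonomials ι K γ := by
    simp [smul_monomial]
  rw [this, map_smul, toep, Module.Basis.constr_basis]

variable {K}

theorem toep_eq_zero_of_support {p q p' q' : ℕ} {P : MvPolynomial ι K}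
    (h : ∀ γ ∈ P.support, ¬ (p = p' + (Finsupp.weight (wt y) γ).1 ∧
      q' = q + (Finsupp.weight (wt y) γ).2)) :
    toep y F₁ F₂ K p q p' q' P = 0 := by
  rw [P.as_sum, map_sum]
  refine Finset.sum_eq_zero fun γ hγ => ?_
  rw [toep_monomial]
  have : Emat y F₁ F₂ K p q p' q' γ = 0 := by
    ext r c
    simp only [Emat, Matrix.of_apply, Matrix.zero_apply]
    rw [if_neg]
    intro hm
    exact h γ hγ hm.deg
  rw [this, smul_zero]

theorem toep_eq_zero_of_whom {p q p' q' i j : ℕ} {P : MvPolynomial ι K}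
    (hP : IsWeightedHomogeneous (wt y) P (i, j)) (h : ¬ (p = p' + i ∧ q' = q + j)) :
    toep y F₁ F₂ K p q p' q' P = 0 := by
  apply toep_eq_zero_of_support
  intro γ hγ
  rw [hP (mem_support_iff.mp hγ)]
  exact h

theorem toep_eq_zero_of_hom {p q k m d : ℕ} {P : MvPolynomial ι K}
    (hP : P.IsHomogeneous d) (h : d ≠ k + m) :
    toep y F₁ F₂ K (p + k) q p (q + m) P = 0 := by
  apply toep_eq_zero_of_support
  intro γ hγ ⟨h1, h2⟩
  have h3 := weight_wt_add y γ
  have h4 : γ.degree = d := by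
    rw [Finsupp.degree_eq_weight_one]
    exact hP (mem_support_iff.mp hγ)
  omega

theorem toep_mul {p q p' q' p'' q'' i j : ℕ} {P₁ : MvPolynomial ι K} (P₂ : MvPolynomial ι K)
    (hP : IsWeightedHomogeneous (wt y) P₁ (i, j)) (h1 : p = p'' + i) (h2 : q'' = q + j) :
    toep y F₁ F₂ K p q p' q' (P₁ * P₂) =
      toep y F₁ F₂ K p'' q'' p' q' P₂ * toep y F₁ F₂ K p q p'' q'' P₁ := by
  conv_lhs => rw [P₁.as_sum, P₂.as_sum, Finset.sum_mul_sum]
  conv_rhs => rw [P₁.as_sum, P₂.as_sum]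
  simp only [map_sum, Matrix.sum_mul, Matrix.mul_sum, monomial_mul, toep_monomial]
  refine Finset.sum_congr rfl fun γ hγ => Finset.sum_congr rfl fun δ _ => ?_
  have hw := hP (mem_support_iff.mp hγ)
  rw [Emat_add y F₁ F₂ γ δ (p'' := p'') (q'' := q'') (by rw [hw]; exact h1) (by rw [hw]; exact h2),
    Matrix.smul_mul, Matrix.mul_smul, smul_smul, mul_comm]

theorem rank_toep_mul_le {l k m i j : ℕ} {P₁ : MvPolynomial ι K} (P₂ : MvPolynomial ι K)
    (hP : IsWeightedHomogeneous (wt y) P₁ (i, j)) (hi : i ≤ k) {N₁ N₂ a b : ℕ}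
    (hN₁ : Fintype.card (ι ⊕ F₁) = N₁ + 1) (hN₂ : Fintype.card (ι ⊕ F₂) = N₂ + 1)
    (ha : N₁ + l = a * l) (hb : N₂ + l = b * l) (ha1 : 1 ≤ a) (hb1 : 1 ≤ b) :
    (toep y F₁ F₂ K (l + k) l l (l + m) (P₁ * P₂)).rank ≤
      Dm N₁ l * Dm N₂ l * (a ^ (k - i) * b ^ j) := by
  rw [toep_mul y F₁ F₂ P₂ hP (p'' := l + (k - i)) (q'' := l + j) (by omega) rfl]
  refine (Matrix.rank_mul_le_left _ _).trans ((Matrix.rank_le_card_width _).trans ?_)
  rw [Fintype.card_prod, card_Mon _ _ _ hN₁, card_Mon _ _ _ hN₂]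
  calc Dm N₁ (l + (k - i)) * Dm N₂ (l + j)
      ≤ (a ^ (k - i) * Dm N₁ l) * (b ^ j * Dm N₂ l) :=
        Nat.mul_le_mul (Dm_add_le ha ha1 _) (Dm_add_le hb hb1 _)
    _ = _ := by ring

end Crest.Agent.R327
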