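import Crest.Agent.R327.Toep

/-! Upper bounds for an abstract subadditive measure on products of homogeneous polynomials. -/

namespace Crest.Agent.R327

open Finset MvPolynomial

/-- An abstract complexity measure with the properties used in the upper bound. -/
structure Meas {ι : Type*} (K : Type*) [Field K] (y : ι → Bool) (A B C : ℝ) (n : ℕ) where
  /-- the measure -/
  μ : MvPolynomial ι K → ℝ
  zero : μ 0 = 0
  add_le : ∀ P Q, μ (P + Q) ≤ μ P + μ Q
  smul_le : ∀ (c : K) P, μ (c • P) ≤ μ P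
  base : ∀ (P₁ P₂ : MvPolynomial ι K) (i₁ j₁ i₂ j₂ : ℕ),
    IsWeightedHomogeneous (wt y) P₁ (i₁, j₁) → IsWeightedHomogeneous (wt y) P₂ (i₂, j₂) →
      μ (P₁ * P₂) ≤ C * Real.exp (-((i₁ * A - j₁ * B) - (i₂ * A - j₂ * B)) / 2)
  deg : ∀ (P : MvPolynomial ι K) (d : ℕ), P.IsHomogeneous d → d ≠ n → μ P = 0

/-- the loss/gain factor of a homogeneous factor of degree `D` -/
noncomputable def phi (A B : ℝ) (D : ℕ) : ℝ :=
  ∑ i ∈ range (D + 1), Real.exp (-|(i : ℝ) * A - ((D - i : ℕ) : ℝ) * B| / 2)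

theorem phi_nonneg (A B : ℝ) (D : ℕ) : 0 ≤ phi A B D :=
  Finset.sum_nonneg fun _ _ => (Real.exp_pos _).le

theorem phi_le (A B : ℝ) (D : ℕ) : phi A B D ≤ D + 1 := by
  unfold phi
  calc _ ≤ ∑ _i ∈ range (D + 1), (1 : ℝ) := by
        refine Finset.sum_le_sum fun i _ => ?_
        rw [Real.exp_le_one_iff]
        have := abs_nonneg ((i : ℝ) * A - ((D - i : ℕ) : ℝ) * B)
        linarith
    _ = _ := by simp

theorem phi_zero (A B : ℝ) : phi A B 0 = 1 := by simp [phi]

variable {ι : Type*} [Fintype ι] {K : Type*} [Field K] {y : ι → Bool} {A B C : ℝ} {n : ℕ}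

theorem sum_whc_of_hom {Q : MvPolynomial ι K} {D : ℕ} (hQ : Q.IsHomogeneous D) :
    Q = ∑ i ∈ range (D + 1), weightedHomogeneousComponent (wt y) (i, D - i) Q := by
  classical
  ext γ
  simp only [coeff_sum, coeff_weightedHomogeneousComponent]
  by_cases h : coeff γ Q = 0
  · simp [h]
  · have h4 : γ.degree = D := by
      rw [Finsupp.degree_eq_weight_one]
      exact hQ h
    have h3 := weight_wt_add y γ
    rw [Finset.sum_eq_single (Finsupp.weight (wt y) γ).1]
    · rw [if_pos]
      ext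
      · rfl
      · simp only; omega
    · intro b _ hb
      rw [if_neg]
      intro h5
      exact hb (by rw [h5])
    · intro h5
      exfalso
      apply h5
      rw [Finset.mem_range]
      omega

namespace Meas

variable (M : Meas K y A B C n)

theorem sum_le {κ : Type*} (s : Finset κ) (f : κ → MvPolynomial ι K) :
    M.μ (∑ i ∈ s, f i) ≤ ∑ i ∈ s, M.μ (f i) := by
  classical
  induction s using Finset.induction_on with
  | empty => simp [M.zero]
  | insert a s ha ih =>
    rw [Finset.sum_insert ha, Finset.sum_insert ha]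
    exact (M.add_le _ _).trans (by linarith)

/-- `P` costs at most a factor `c` in every bihomogeneous context -/
def Good (P : MvPolynomial ι K) (c : ℝ) : Prop :=
  ∀ (P₁ P₂ : MvPolynomial ι K) (i₁ j₁ i₂ j₂ : ℕ),
    IsWeightedHomogeneous (wt y) P₁ (i₁, j₁) → IsWeightedHomogeneous (wt y) P₂ (i₂, j₂) →
      M.μ (P₁ * P₂ * P) ≤ C * Real.exp (-((i₁ * A - j₁ * B) - (i₂ * A - j₂ * B)) / 2) * c

theorem good_one : M.Good 1 1 := by
  intro P₁ P₂ i₁ j₁ i₂ j₂ h1 h2
  simpa using M.base P₁ P₂ i₁ j₁ i₂ j₂ h1 h2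

variable {M}

theorem Good.mono (hC : 0 ≤ C) {P : MvPolynomial ι K} {c c' : ℝ} (h : M.Good P c) (hc : c ≤ c') :
    M.Good P c' := by
  intro P₁ P₂ i₁ j₁ i₂ j₂ h1 h2
  refine (h P₁ P₂ i₁ j₁ i₂ j₂ h1 h2).trans ?_
  gcongr

theorem Good.le {P : MvPolynomial ι K} {c : ℝ} (h : M.Good P c) : M.μ P ≤ C * c := by
  have := h 1 1 0 0 0 0 (isWeightedHomogeneous_one K _) (isWeightedHomogeneous_one K _)
  simpa using this

theorem Good.mul {P Q : MvPolynomial ι K} {c : ℝ} {D : ℕ} (h : M.Good P c)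
    (hQ : Q.IsHomogeneous D) : M.Good (Q * P) (phi A B D * c) := by
  intro P₁ P₂ i₁ j₁ i₂ j₂ h1 h2
  rw [sum_whc_of_hom (y := y) hQ, Finset.sum_mul, Finset.mul_sum, phi, Finset.sum_mul,
    Finset.mul_sum]
  refine (M.sum_le _ _).trans (Finset.sum_le_sum fun i _ => ?_)
  set Qi := weightedHomogeneousComponent (wt y) (i, D - i) Q
  have hQi : IsWeightedHomogeneous (wt y) Qi (i, D - i) :=
    weightedHomogeneousComponent_isWeightedHomogeneous _ _
  rcases le_total 0 ((i : ℝ) * A - ((D - i : ℕ) : ℝ) * B) with h0 | h0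
  · have e : P₁ * P₂ * (Qi * P) = (P₁ * Qi) * P₂ * P := by ring
    rw [e]
    refine (h _ _ (i₁ + i) (j₁ + (D - i)) i₂ j₂ (h1.mul hQi) h2).trans (le_of_eq ?_)
    rw [abs_of_nonneg h0, mul_assoc, mul_assoc, ← mul_assoc (Real.exp _), ← Real.exp_add]
    congr 3
    push_cast
    ring
  · have e : P₁ * P₂ * (Qi * P) = P₁ * (P₂ * Qi) * P := by ring
    rw [e]
    refine (h _ _ i₁ j₁ (i₂ + i) (j₂ + (D - i)) h1 (h2.mul hQi)).trans (le_of_eq ?_)
    rw [abs_of_nonpos h0, mul_assoc, mul_assoc, ← mul_assoc (Real.exp _), ← Real.exp_add]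
    congr 3
    push_cast
    ring

/-- products of factors of degree at most `t` -/
theorem good_low (hC : 0 ≤ C) {κ : Type*} (f : κ → MvPolynomial ι K) (d : κ → ℕ)
    (hf : ∀ x, (f x).IsHomogeneous (d x)) {t : ℕ} (ht : 1 ≤ t) {ρ : ℝ} (hρ0 : 0 ≤ ρ) (hρ1 : ρ ≤ 1)
    (hρ : ∀ D, t ≤ D → D ≤ 2 * t → phi A B D ≤ ρ) (s : Multiset κ) (hs : ∀ x ∈ s, d x ≤ t) :
    ∀ (G : MvPolynomial ι K) (g : ℕ), G.IsHomogeneous g → g < t →
      M.Good (G * (s.map f).prod) (t * ρ ^ ((g + (s.map d).sum) / (2 * t))) := by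
  induction s using Multiset.induction_on with
  | empty =>
    intro G g hG hg
    have h0 : g / (2 * t) = 0 := Nat.div_eq_of_lt (by omega)
    simp only [Multiset.map_zero, Multiset.prod_zero, Multiset.sum_zero, add_zero, h0, pow_zero]
    refine (M.good_one.mul hG).mono hC ?_
    have := phi_le A B g
    have h2 : ((g + 1 : ℕ) : ℝ) ≤ t := by exact_mod_cast hg
    push_cast at h2
    linarith
  | cons x s ih =>
    intro G g hG hg
    have ih' := ih (fun z hz => hs z (Multiset.mem_cons_of_mem hz))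
    have hx := hs x (Multiset.mem_cons_self _ _)
    simp only [Multiset.map_cons, Multiset.prod_cons, Multiset.sum_cons]
    rw [← mul_assoc, ← add_assoc]
    by_cases h : g + d x < t
    · exact ih' _ _ (hG.mul (hf x)) h
    · have h1 := (ih' 1 0 (isHomogeneous_one _ _) (by omega)).mul (hG.mul (hf x))
      rw [one_mul, zero_add] at h1
      refine h1.mono hC ?_
      have h2 := hρ (g + d x) (by omega) (by omega)
      have h3 : (g + d x + (s.map d).sum) / (2 * t) ≤ (s.map d).sum / (2 * t) + 1 := by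
        rw [← Nat.add_div_right _ (by omega : 0 < 2 * t)]
        exact Nat.div_le_div_right (by omega)
      calc phi A B (g + d x) * (t * ρ ^ ((s.map d).sum / (2 * t)))
          ≤ ρ * (t * ρ ^ ((s.map d).sum / (2 * t))) := by gcongr
        _ = t * ρ ^ ((s.map d).sum / (2 * t) + 1) := by ring
        _ ≤ _ := by
          gcongr ?_ * ?_
          exact pow_le_pow_of_le_one hρ0 hρ1 h3

/-- products of linear forms (and constants) with an arbitrary homogeneous polynomial -/
theorem good_lin (hC : 0 ≤ C) {κ : Type*} (f : κ → MvPolynomial ι K) (d : κ → ℕ)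
    (hf : ∀ x, (f x).IsHomogeneous (d x)) (hd : ∀ x, d x ≤ 1) {ρ : ℝ} (hρ0 : 0 ≤ ρ)
    (hρ : phi A B 1 ≤ ρ) (s : Multiset κ) (G : MvPolynomial ι K) (g : ℕ)
    (hG : G.IsHomogeneous g) :
    M.Good ((s.map f).prod * G) (ρ ^ (s.map d).sum * (g + 1)) := by
  induction s using Multiset.induction_on with
  | empty =>
    simp only [Multiset.map_zero, Multiset.prod_zero, Multiset.sum_zero, pow_zero, one_mul]
    have := M.good_one.mul hG
    rw [mul_one, mul_one] at this
    exact this.mono hC (phi_le A B g)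
  | cons x s ih =>
    simp only [Multiset.map_cons, Multiset.prod_cons, Multiset.sum_cons]
    rw [mul_assoc, pow_add, mul_assoc]
    refine (ih.mul (hf x)).mono hC ?_
    gcongr
    have := hd x
    interval_cases h : d x
    · simp [phi_zero]
    · simpa using hρ

end Meas

end Crest.Agent.R327
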